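import Claimed.Agent.R282.K2.DDefs

/-!
# Row 282, layer K2, package A: definitions (chain counts as operators)

`M : PiRep k n V` over a FINITE field, all `V i` finite.  A family of subspaces is `N : ∀ i, Submodule k (V i)`.

* `M.Step i N N₁` : `N₁ ⊂ N` are submodules with `N / N₁ ≅ S_i`.
* `M.opT R i` : the operator `(T_i φ)(N) = ∑_(Step i N N₁) φ(N₁)` on functions (families → `R`).
* `M.rho R : FreeAlgebra R (Fin n) →ₐ End` with `f_i ↦ T_i`.
* `M.deltaAt R N x = (rho x 1_⊥)(N)`, `M.delta R = M.deltaAt R ⊤`.  So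
  `delta (f_(i_1) ⋯ f_(i_m)) = #{chains ⊤ = N⁰ ⊃ N¹ ⊃ ⋯ ⊃ N^m = ⊥, N^(s-1)/N^s ≅ S_(i_s)}` in `R`.
* `strWord w c` : the word `j_1^(c_1) j_2^(c_2) ⋯` of a sequence `w = (j_1, j_2, …)` and a string `c`.
* positive roots `PRD n`, `PRD.dim`, Kostant partitions `KP n d`, `serreSpan`: `K2/C/Defs.lean` (helper56).
* `PiMod.Iso`, `PiMod.IsOr`.
-/

set_option autoImplicit false

namespace Claimed.Agent.R282

open Module

namespace PiRep

variable {k : Type} [Field k] {n : ℕ} {V : Fin n → Type} [∀ i, AddCommGroup (V i)]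
  [∀ i, Module k (V i)] (M : PiRep k n V)

/-- `N₁ ⊂ N` are submodules with `N / N₁ ≅ S_i` (`N` is required to be a submodule as well, so that operator
identities like `rho (serreElt i j) = 0` hold at ALL families) -/
def Step (i : Fin n) (N N₁ : ∀ i, Submodule k (V i)) : Prop :=
  M.IsSub N ∧ M.IsSub N₁ ∧ N₁ ≤ N ∧ (∀ j, j ≠ i → N₁ j = N j) ∧
    finrank k (N₁ i) + 1 = finrank k (N i)

/-- chains from `N` down to `⊥` with prescribed simple quotients, as lists of families -/
def IsChain : List (Fin n) → (∀ i, Submodule k (V i)) → List (∀ i, Submodule k (V i)) → Prop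
  | [], N, [] => N = ⊥
  | i :: w, N, N₁ :: L => M.Step i N N₁ ∧ IsChain w N₁ L
  | _, _, _ => False

variable [∀ i, Finite (V i)] (R : Type) [CommRing R]

open Classical in
/-- the operator `T_i` -/
noncomputable def opT (i : Fin n) :
    ((∀ i, Submodule k (V i)) → R) →ₗ[R] ((∀ i, Submodule k (V i)) → R) :=
  letI : Fintype (∀ i, Submodule k (V i)) := Fintype.ofFinite _
  { toFun := fun φ N => ∑ N₁ with M.Step i N N₁, φ N₁
    map_add' := fun φ ψ => by
      funext N
      simp [Finset.sum_add_distrib]
    map_smul' := fun c φ => by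
      funext N
      simp [Finset.mul_sum] }

/-- the representation of the free algebra on functions on families -/
noncomputable def rho :
    FreeAlgebra R (Fin n) →ₐ[R] Module.End R ((∀ i, Submodule k (V i)) → R) :=
  FreeAlgebra.lift R (M.opT R)

open Classical in
/-- chain counts starting from the family `N` -/
noncomputable def deltaAt (N : ∀ i, Submodule k (V i)) : FreeAlgebra R (Fin n) →ₗ[R] R :=
  (LinearMap.proj N) ∘ₗ (LinearMap.applyₗ (Pi.single ⊥ 1 : (∀ i, Submodule k (V i)) → R)) ∘ₗ
    (M.rho R).toLinearMap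

/-- chain counts of the whole module -/
noncomputable def delta : FreeAlgebra R (Fin n) →ₗ[R] R := M.deltaAt R ⊤

end PiRep

/-- chain counts of a `PiMod` over a finite field -/
noncomputable def PiMod.delta {k : Type} [Field k] [Finite k] {n : ℕ} {d : Fin n → ℕ}
    (M : PiMod k n d) (R : Type) [CommRing R] : FreeAlgebra R (Fin n) →ₗ[R] R :=
  M.toRep.delta R

/-- the word `j_1^(c_1) j_2^(c_2) ⋯` -/
def strWord {n : ℕ} : List (Fin n) → List ℕ → List (Fin n)
  | i :: w, c :: cs => List.replicate c i ++ strWord w cs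
  | _, _ => []

/-- isomorphism of modules with the same dimension vector -/
def PiMod.Iso {k : Type} [Field k] {n : ℕ} {d : Fin n → ℕ} (M M' : PiMod k n d) : Prop :=
  ∃ g : ∀ i, Matrix (Fin (d i)) (Fin (d i)) k, (∀ i, IsUnit (g i)) ∧
    ∀ i j, M'.a i j * g i = g j * M.a i j

/-- only the oriented arrows `i → j`, `i < j`, are nonzero -/
def PiMod.IsOr {k : Type} [Field k] {n : ℕ} {d : Fin n → ℕ} (M : PiMod k n d) : Prop :=
  ∀ i j, j < i → M.a i j = 0

/-- forces the on-demand equation lemmas to be stored HERE (else several later modules store their own copies,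
which collide in the joint check of the grader) -/
theorem k2ADefs_forced_eqns : True := by
  have := @PiRep.IsChain.eq_def
  have := @PiRep.IsChain.eq_1
  have := @strWord.eq_def
  have := @strWord.eq_1
  trivial

end Claimed.Agent.R282
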