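import Mathlib

/-!
# Row 282, layer K2 + Sec. 6: interface

Replacement of Prop 6.2 (tensor criterion by preprojective modules) by finite mathematics.

* `DQne R n a b d` : the degree `d` part of  `F / (Serre + ∑ f_i^(a_i+1) F + ∑ F f_i^(b_i+1))`
  is not zero (`F` = free algebra on `f_0 .. f_(n-1)` over `R`).  This is (6.4) of the paper.
* `PiMod k n d` : a module of dimension vector `d` over the preprojective algebra of `D_n`
  over the field `k`, given by matrices.
* DEFINITIONS ONLY.  Contracts `k2_fwd`, `k2_bwd`: `K2/Contracts.lean`; `s6_double`: `K2/S6.lean`;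
  glue `prop61_dq` (= Prop 6.1 on the level of `DQne`): `K2/Prop61.lean`.

Vertices are 0-based: the chain is `0 - 1 - ... - (n-2)` and the vertex `n-1` is joined to `n-3`.
Simple roots: `α_i = e_i - e_(i+1)` for `i + 1 < n`, `α_(n-1) = e_(n-2) + e_(n-1)`.
-/

set_option autoImplicit false

namespace Claimed.Agent.R282

/-- adjacency in the Dynkin diagram `D_n` (0-based; `D_2 = A_1 × A_1`, `D_3 = A_3`) -/
def adjD (n : ℕ) (i j : Fin n) : Prop :=
  ((i : ℕ) + 1 = j ∧ (j : ℕ) + 1 < n) ∨ ((j : ℕ) + 1 = i ∧ (i : ℕ) + 1 < n) ∨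
  ((i : ℕ) + 3 = n ∧ (j : ℕ) + 1 = n) ∨ ((j : ℕ) + 3 = n ∧ (i : ℕ) + 1 = n)

instance (n : ℕ) (i j : Fin n) : Decidable (adjD n i j) := by unfold adjD; infer_instance

/-- simple roots of `D_n` -/
def simpleRootD (n : ℕ) (i : Fin n) : Fin n → ℤ := fun k =>
  if (i : ℕ) + 1 < n then (if k = i then 1 else 0) - (if (k : ℕ) = i + 1 then 1 else 0)
  else (if (k : ℕ) + 2 = n then 1 else 0) + (if (k : ℕ) + 1 = n then 1 else 0)

section FreeAlg

variable (R : Type) [CommRing R] (n : ℕ)

/-- generator `f_i` of the free algebra -/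
noncomputable def fgen (i : Fin n) : FreeAlgebra R (Fin n) := FreeAlgebra.ι R i

/-- the monomial of a word -/
noncomputable def wordMon (w : List (Fin n)) : FreeAlgebra R (Fin n) := (w.map (fgen R n)).prod

/-- Serre element for the ordered pair `(i, j)` -/
noncomputable def serreElt (i j : Fin n) : FreeAlgebra R (Fin n) :=
  if adjD n i j then
    fgen R n i * fgen R n i * fgen R n j - 2 * (fgen R n i * fgen R n j * fgen R n i)
      + fgen R n j * fgen R n i * fgen R n i
  else fgen R n i * fgen R n j - fgen R n j * fgen R n i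

/-- `Serre + ∑ f_i^(a_i+1) F + ∑ F f_i^(b_i+1)` as an `R`-submodule of the free algebra -/
noncomputable def dqIdeal (a b : Fin n → ℕ) : Submodule R (FreeAlgebra R (Fin n)) :=
  Submodule.span R {x | ∃ u v i j, x = u * serreElt R n i j * v} ⊔
  Submodule.span R {x | ∃ u i, x = fgen R n i ^ (a i + 1) * u} ⊔
  Submodule.span R {x | ∃ u i, x = u * fgen R n i ^ (b i + 1)}

/-- the double quotient (6.4) is nonzero in degree `d` -/
def DQne (a b d : Fin n → ℕ) : Prop :=
  ∃ w : List (Fin n), (∀ i, w.count i = d i) ∧ wordMon R n w ∉ dqIdeal R n a b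

end FreeAlg

/-- A module over the preprojective algebra of `D_n` with dimension vector `d`, by matrices.
`a i j` is the arrow `i → j` of the doubled quiver. Orientation: `j → i` is "oriented" iff `j < i`;
sign convention of the paper: plus sign for (oriented arrow) ∘ (its reverse). -/
structure PiMod (k : Type) [Field k] (n : ℕ) (d : Fin n → ℕ) where
  a : ∀ i j : Fin n, Matrix (Fin (d j)) (Fin (d i)) k
  zero : ∀ i j, ¬ adjD n i j → a i j = 0
  rel : ∀ i, ∑ j, (if j < i then (1 : k) else -1) • (a j i * a i j) = 0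

/-- `top_i M = dim (M_i / ∑ images of the incoming arrows)` -/
noncomputable def PiMod.top {k : Type} [Field k] {n : ℕ} {d : Fin n → ℕ} (M : PiMod k n d)
    (i : Fin n) : ℕ :=
  Module.finrank k ((Fin (d i) → k) ⧸ (⨆ j, LinearMap.range (Matrix.mulVecLin (M.a j i))))

/-- `soc_i M = dim ⋂ kernels of the outgoing arrows` -/
noncomputable def PiMod.soc {k : Type} [Field k] {n : ℕ} {d : Fin n → ℕ} (M : PiMod k n d)
    (i : Fin n) : ℕ :=
  Module.finrank k (⨅ j, LinearMap.ker (Matrix.mulVecLin (M.a i j)) : Submodule k (Fin (d i) → k))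

/-- the bounds of the tensor criterion -/
def PiMod.Bdd {k : Type} [Field k] {n : ℕ} {d : Fin n → ℕ} (M : PiMod k n d)
    (a b : Fin n → ℕ) : Prop := ∀ i, M.top i ≤ a i ∧ M.soc i ≤ b i

/-- "there is a module with the bounds over a finite field of odd characteristic with at least `B`
elements whose order is `1` mod `l`" -/
def HasModMod (l B n : ℕ) (a b d : Fin n → ℕ) : Prop :=
  ∃ (k : Type) (_ : Field k) (_ : Fintype k), l ∣ Fintype.card k - 1 ∧ B ≤ Fintype.card k ∧
    (2 : k) ≠ 0 ∧ ∃ M : PiMod k n d, M.Bdd a b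

/-- index map `D_(r+1) → D_n`: trunk vertices to themselves, both leaves to the vertex `r-1` -/
def cutIdx (n r : ℕ) (hr : 1 ≤ r) (hrn : r + 2 ≤ n) (i : Fin (r + 1)) : Fin n :=
  ⟨min i.val (r - 1), by omega⟩

/-- new dimension vector: trunk doubled, both leaves get `d_(r-1)` -/
def cutDim (n r : ℕ) (hr : 1 ≤ r) (hrn : r + 2 ≤ n) (d : Fin n → ℕ) : Fin (r + 1) → ℕ :=
  fun i => if i.val + 1 < r then 2 * d (cutIdx n r hr hrn i) else d (cutIdx n r hr hrn i)

/-- new bounds: everything doubled, both leaves get twice the bound at the vertex `r-1` -/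
def cutBd (n r : ℕ) (hr : 1 ≤ r) (hrn : r + 2 ≤ n) (a : Fin n → ℕ) : Fin (r + 1) → ℕ :=
  fun i => 2 * a (cutIdx n r hr hrn i)

end Claimed.Agent.R282
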