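-- KEEP
import Claimed.Agent.R282.K2.Iface

/-!
# Row 282, layer K2: free algebra kit (helper132), shared by the packages A, B, C, E.  NO sorry.

* `wordFun R n φ` : the `R`-linear functional on the free algebra with value `φ w` on the word `w`.
* `wordMon_*`     : calculus of monomials.
* `fk_span`, `fk_induction` : the words span.
* `fk_two_sided`, `fk_left`, `fk_right` : a linear map that kills `u * x * v` for all WORDS `u, v`
  kills it for all elements `u, v`.
-/

set_option autoImplicit false

namespace Claimed.Agent.R282

section FreeKit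

variable (R : Type) [CommRing R] (n : ℕ)

theorem wordMon_nil : wordMon R n [] = 1 := by simp [wordMon]

theorem wordMon_cons (i : Fin n) (w : List (Fin n)) :
    wordMon R n (i :: w) = fgen R n i * wordMon R n w := by simp [wordMon]

theorem wordMon_singleton (i : Fin n) : wordMon R n [i] = fgen R n i := by simp [wordMon]

theorem wordMon_append (u v : List (Fin n)) :
    wordMon R n (u ++ v) = wordMon R n u * wordMon R n v := by simp [wordMon]

theorem wordMon_replicate (p : ℕ) (i : Fin n) :
    wordMon R n (List.replicate p i) = fgen R n i ^ p := by simp [wordMon]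

theorem fk_basis (w : List (Fin n)) :
    FreeAlgebra.basisFreeMonoid R (Fin n) (FreeMonoid.ofList w) = wordMon R n w := by
  simp only [FreeAlgebra.basisFreeMonoid, Module.Basis.map_apply, Finsupp.coe_basisSingleOne]
  have : (FreeAlgebra.equivMonoidAlgebraFreeMonoid.toLinearEquiv.trans
      (MonoidAlgebra.coeffLinearEquiv R)) (wordMon R n w)
        = Finsupp.single (FreeMonoid.ofList w) (1:R) := by
    simp only [LinearEquiv.trans_apply, AlgEquiv.toLinearEquiv_apply]
    have h2 : (FreeAlgebra.equivMonoidAlgebraFreeMonoid (R := R) (X := Fin n)) (wordMon R n w)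
        = MonoidAlgebra.of R (FreeMonoid (Fin n)) (FreeMonoid.ofList w) := by
      induction w with
      | nil => simp [wordMon]; rfl
      | cons i w ih =>
        rw [wordMon_cons, map_mul, ih]
        have h3 : (FreeAlgebra.equivMonoidAlgebraFreeMonoid (R := R) (X := Fin n)) (fgen R n i)
            = MonoidAlgebra.of R (FreeMonoid (Fin n)) (FreeMonoid.of i) := by
          simp [fgen, FreeAlgebra.equivMonoidAlgebraFreeMonoid]
        rw [h3, ← map_mul]
        rfl
    rw [h2]
    simp
  rw [← this, LinearEquiv.symm_apply_apply]

/-- the linear functional on the free algebra with prescribed values on the words -/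
noncomputable def wordFun (φ : List (Fin n) → R) : FreeAlgebra R (Fin n) →ₗ[R] R :=
  (FreeAlgebra.basisFreeMonoid R (Fin n)).constr R (fun w => φ (FreeMonoid.toList w))

theorem wordFun_wordMon (φ : List (Fin n) → R) (w : List (Fin n)) :
    wordFun R n φ (wordMon R n w) = φ w := by
  rw [← fk_basis, wordFun, Module.Basis.constr_basis]
  rfl

/-- the words span the free algebra -/
theorem fk_span : Submodule.span R (Set.range (wordMon R n)) = ⊤ := by
  rw [← (FreeAlgebra.basisFreeMonoid R (Fin n)).span_eq]
  congr 1
  ext x
  constructor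
  · rintro ⟨w, rfl⟩
    exact ⟨FreeMonoid.ofList w, fk_basis R n w⟩
  · rintro ⟨w, rfl⟩
    exact ⟨FreeMonoid.toList w, (fk_basis R n (FreeMonoid.toList w)).symm⟩

variable {R n}

/-- induction over the free algebra as a module spanned by the words -/
theorem fk_induction {P : FreeAlgebra R (Fin n) → Prop} (x : FreeAlgebra R (Fin n))
    (hw : ∀ w, P (wordMon R n w)) (h0 : P 0) (hadd : ∀ x y, P x → P y → P (x + y))
    (hsmul : ∀ (r : R) x, P x → P (r • x)) : P x := by
  have hx : x ∈ Submodule.span R (Set.range (wordMon R n)) := by rw [fk_span]; trivial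
  induction hx using Submodule.span_induction with
  | mem x hx => obtain ⟨w, rfl⟩ := hx; exact hw w
  | zero => exact h0
  | add x y _ _ hx hy => exact hadd x y hx hy
  | smul r x _ hx => exact hsmul r x hx

/-- two linear maps which agree on the words are equal -/
theorem fk_ext {P : Type*} [AddCommGroup P] [Module R P] {f g : FreeAlgebra R (Fin n) →ₗ[R] P}
    (h : ∀ w, f (wordMon R n w) = g (wordMon R n w)) : f = g := by
  ext x
  induction x using fk_induction with
  | hw w => exact h w
  | h0 => simp
  | hadd x y hx hy => simp [hx, hy]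
  | hsmul r x hx => simp [hx]

theorem fk_right {P : Type*} [AddCommGroup P] [Module R P] (f : FreeAlgebra R (Fin n) →ₗ[R] P)
    (x : FreeAlgebra R (Fin n)) (h : ∀ v, f (x * wordMon R n v) = 0)
    (v : FreeAlgebra R (Fin n)) : f (x * v) = 0 := by
  induction v using fk_induction with
  | hw w => exact h w
  | h0 => simp
  | hadd a b ha hb => rw [mul_add, map_add, ha, hb, add_zero]
  | hsmul r a ha => rw [mul_smul_comm, map_smul, ha, smul_zero]

theorem fk_left {P : Type*} [AddCommGroup P] [Module R P] (f : FreeAlgebra R (Fin n) →ₗ[R] P)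
    (x : FreeAlgebra R (Fin n)) (h : ∀ u, f (wordMon R n u * x) = 0)
    (u : FreeAlgebra R (Fin n)) : f (u * x) = 0 := by
  induction u using fk_induction with
  | hw w => exact h w
  | h0 => simp
  | hadd a b ha hb => rw [add_mul, map_add, ha, hb, add_zero]
  | hsmul r a ha => rw [smul_mul_assoc, map_smul, ha, smul_zero]

theorem fk_two_sided {P : Type*} [AddCommGroup P] [Module R P]
    (f : FreeAlgebra R (Fin n) →ₗ[R] P) (x : FreeAlgebra R (Fin n))
    (h : ∀ u v, f (wordMon R n u * x * wordMon R n v) = 0)
    (u v : FreeAlgebra R (Fin n)) : f (u * x * v) = 0 := by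
  refine fk_right f (u * x) (fun v' => ?_) v
  have := fk_left f (x * wordMon R n v') (fun u' => by rw [← mul_assoc]; exact h u' v') u
  rwa [← mul_assoc] at this

end FreeKit

end Claimed.Agent.R282
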