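import Claimed.Agent.R282.K2.A.Serre
import Claimed.Agent.R282.K2.A.Dual
import Claimed.Agent.R282.K2.A.Exh

/-!
# Row 282, layer K2, package A: the contracts consumed by the top glue `K2/Contracts.lean`

Owner: helper132.  Statements by helper40 (verbatim).  ALL PROVED HERE from the leaves of `K2/A/*.lean`:
`Cnt` (no sorry: counts, bridge to `rho`/`deltaAt`), `Rad`, `Socle`, `Exh`, `Lines`, `Flags`, `Serre`, `Dual`.
-/

set_option autoImplicit false

namespace Claimed.Agent.R282

open Module

section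

variable {k : Type} [Field k] [Fintype k] {n : ℕ} (R : Type) [CommRing R]

/-- A2 -/
theorem k2a_serre {V : Fin n → Type} [∀ i, AddCommGroup (V i)] [∀ i, Module k (V i)]
    [∀ i, Finite (V i)] (M : PiRep k n V) (hq : ((Fintype.card k : ℕ) : R) = 1) (i j : Fin n) :
    M.rho R (serreElt R n i j) = 0 := by
  apply LinearMap.ext
  intro φ
  funext N
  unfold serreElt
  split_ifs with hij
  · have e1 : fgen R n i * fgen R n i * fgen R n j = wordMon R n [i, i, j] := by
      simp [wordMon, mul_assoc]
    have e2 : fgen R n i * fgen R n j * fgen R n i = wordMon R n [i, j, i] := by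
      simp [wordMon, mul_assoc]
    have e3 : fgen R n j * fgen R n i * fgen R n i = wordMon R n [j, i, i] := by
      simp [wordMon, mul_assoc]
    rw [e1, e2, e3, map_add, map_sub, map_mul, map_ofNat]
    simp only [LinearMap.add_apply, LinearMap.sub_apply, Pi.add_apply, Pi.sub_apply,
      Module.End.mul_apply, Module.End.ofNat_apply, Pi.smul_apply, LinearMap.zero_apply,
      Pi.zero_apply, PiRep.rho_wordMon]
    rw [Finset.smul_sum, ← Finset.sum_sub_distrib, ← Finset.sum_add_distrib]
    apply Finset.sum_eq_zero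
    intro N' _
    rcases PiRep.serre_adj (M := M) hij N N' with ⟨h1, h2, h3⟩ | ⟨h1, h2, h3⟩ | ⟨h1, h2, h3⟩ |
      ⟨h1, h2, h3⟩ <;> rw [h1, h2, h3] <;> push_cast <;> simp only [hq, smul_eq_mul, nsmul_eq_mul] <;>
      push_cast <;> ring
  · have e1 : fgen R n i * fgen R n j = wordMon R n [i, j] := by simp [wordMon]
    have e2 : fgen R n j * fgen R n i = wordMon R n [j, i] := by simp [wordMon]
    rw [e1, e2, map_sub]
    simp only [LinearMap.sub_apply, Pi.sub_apply, LinearMap.zero_apply, Pi.zero_apply,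
      PiRep.rho_wordMon, PiRep.cnt_comm (M := M) hij N]
    simp

variable {d : Fin n → ℕ}

/-- A3, tops -/
theorem k2a_top (M : PiMod k n d) (i : Fin n) (p : ℕ) (h : M.top i < p)
    (u : FreeAlgebra R (Fin n)) : M.delta R (fgen R n i ^ p * u) = 0 := by
  unfold PiMod.delta PiRep.delta
  rw [PiRep.deltaAt_apply, map_mul, Module.End.mul_apply, ← wordMon_replicate, PiRep.rho_wordMon]
  apply Finset.sum_eq_zero
  intro N' _
  rw [PiRep.cnt_replicate_gt i p (by rw [← PiMod.top_eq]; exact h) N']
  simp

/-- A3, socles -/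
theorem k2a_soc (M : PiMod k n d) (i : Fin n) (p : ℕ) (h : M.soc i < p)
    (u : FreeAlgebra R (Fin n)) : M.delta R (u * fgen R n i ^ p) = 0 := by
  unfold PiMod.delta PiRep.delta
  rw [PiRep.deltaAt_apply, map_mul, Module.End.mul_apply]
  have h0 : M.toRep.rho R (fgen R n i ^ p) (Pi.single ⊥ 1) = 0 := by
    funext N
    rw [← PiRep.deltaAt_apply, ← wordMon_replicate, PiRep.deltaAt_wordMon,
      PiRep.cnt_replicate_soc i p ⊥ M.toRep.isSub_bot]
    · simp
    · rw [← PiMod.soc_eq]
      simpa using h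
  rw [h0, map_zero]
  rfl

/-- A5, diagonal -/
theorem k2a_str_unit (M : PiMod k n d) (w : List (Fin n)) (hE : M.Exh w)
    (hq : ((Fintype.card k : ℕ) : R) = 1)
    (hf : ∀ m : ℕ, 0 < m → m ≤ ∑ i, d i → IsUnit (m : R)) :
    IsUnit (M.delta R (wordMon R n (strWord w (M.str w)))) := by
  unfold PiMod.delta PiRep.delta
  rw [PiRep.deltaAt_wordMon]
  have h1 := PiRep.cnt_strWord_self (M := M.toRep) M.toRep.isSub_top w
  have hE' : M.toRep.radSeq w ⊤ = ⊥ := hE
  rw [hE'] at h1
  have h2 : M.str w = M.toRep.strFrom w ⊤ := rfl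
  rw [h2, h1]
  have hfac : ∀ c : ℕ, c ≤ ∑ i, d i → IsUnit ((c.factorial : ℕ) : R) := by
    intro c
    induction c with
    | zero => intro _; simp
    | succ c ih =>
      intro hc
      rw [Nat.factorial_succ, Nat.cast_mul]
      exact (hf (c + 1) (Nat.succ_pos c) hc).mul (ih (by omega))
  have hall : ∀ c ∈ M.toRep.strFrom w ⊤, IsUnit ((qfact (Fintype.card k) c : ℕ) : R) := by
    intro c hc
    rw [qfact_cast R _ c hq]
    apply hfac
    obtain ⟨i, hi⟩ := PiRep.strFrom_le (M := M.toRep) w ⊤ c hc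
    rw [Module.finrank_fin_fun] at hi
    exact hi.trans (Finset.single_le_sum (f := d) (fun _ _ => Nat.zero_le _) (Finset.mem_univ i))
  generalize M.toRep.strFrom w ⊤ = cs at hall
  induction cs with
  | nil => simp
  | cons c cs ih =>
    rw [List.map_cons, List.prod_cons, Nat.cast_mul]
    exact (hall c (by simp)).mul (ih (fun c' hc' => hall c' (by simp [hc'])))

/-- A5, triangularity -/
theorem k2a_str_zero (M : PiMod k n d) (w : List (Fin n)) (c : List ℕ)
    (hlen : c.length = w.length) (hlt : M.str w < c) :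
    M.delta R (wordMon R n (strWord w c)) = 0 := by
  unfold PiMod.delta PiRep.delta
  rw [PiRep.deltaAt_wordMon, PiRep.cnt_strWord_lex M.toRep.isSub_top w c hlen hlt ⊥]
  simp

/-- A6 -/
theorem k2a_dual (M : PiMod k n d) (w : List (Fin n)) :
    M.dual.delta R (wordMon R n w) = M.delta R (wordMon R n w.reverse) := by
  unfold PiMod.delta PiRep.delta
  rw [PiRep.deltaAt_wordMon, PiRep.deltaAt_wordMon, cnt_dual]

end

section

variable {k : Type} [Field k] {n : ℕ} {d : Fin n → ℕ}

/-- A4 + A5: the standard sequences exhaust every module -/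
theorem k2a_exh (M : PiMod k n d) (i₀ : Fin n) : M.Exh (k2Seq n d i₀) :=
  M.exh_k2Seq i₀

/-- the word of the string of an exhausting sequence has degree `d` -/
theorem k2a_count (M : PiMod k n d) (w : List (Fin n)) (hE : M.Exh w) (i : Fin n) :
    (strWord w (M.str w)).count i = d i := by
  have h := PiRep.count_strWord (M := M.toRep) M.toRep.isSub_top w i
  have hE' : M.toRep.radSeq w ⊤ = ⊥ := hE
  rw [hE'] at h
  have h2 : M.str w = M.toRep.strFrom w ⊤ := rfl
  rw [h2]
  simpa using h

theorem k2a_str_length (M : PiMod k n d) (w : List (Fin n)) : (M.str w).length = w.length :=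
  M.toRep.strFrom_length w ⊤

/-- the first entry of the string is the top -/
theorem k2a_str_cons (M : PiMod k n d) (i₀ : Fin n) (w : List (Fin n)) :
    ∃ cs, M.str (i₀ :: w) = M.top i₀ :: cs :=
  ⟨_, by rw [PiMod.top_eq]; rfl⟩

end

end Claimed.Agent.R282
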