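import Claimed.Agent.R282.K2.E.Main

/-!
# Row 282, layer K2: the two contracts (plan: `K2/Plan.lean`, packages A-E)

Proved in `K2/E/Main.lean` (package E, helper51) from the input contracts of `K2/E/Defs.lean` (packages A-D).
-/

set_option autoImplicit false

namespace Claimed.Agent.R282

/-- CONTRACT K2-fwd (occurrence ⇒ module, over arbitrarily large fields). -/
theorem k2_fwd (n : ℕ) (hn : 2 ≤ n) (a b d : Fin n → ℕ) (h : DQne ℚ n a b d)
    (l : ℕ) (hl : l.Prime) (h2 : 2 < l) (hd : ∑ i, d i < l) (B : ℕ) : HasModMod l B n a b d :=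
  k2e_fwd n hn a b d h l hl h2 hd B

/-- CONTRACT K2-bwd (modules for infinitely many `l` ⇒ occurrence). -/
theorem k2_bwd (n : ℕ) (hn : 2 ≤ n) (a b d : Fin n → ℕ)
    (h : ∀ B : ℕ, ∃ l, B < l ∧ l.Prime ∧ HasModMod l 0 n a b d) : DQne ℚ n a b d :=
  k2e_bwd n hn a b d h

end Claimed.Agent.R282
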