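/-
Row 282, layer K2.  SHARED DEFINITIONS for the packages A, D, E (helper66, agreed with helper40 10:52Z):
representations of the preprojective algebra on arbitrary families of vector spaces (`PiRep`), the bridge `PiMod.toRep`,
families of subspaces, `rad_i`, the iterated radical along a sequence, STRINGS, the dual module, the `n` sequences.

Conventions (K2/Iface.lean): `a i j` is the arrow `i → j`; the oriented quiver consists of the arrows `i → j` with `i < j`.
A family of subspaces is a plain dependent function `N : ∀ i, Submodule k (V i)`; `⊤`, `⊥`, `≤` are the pointwise (Pi) ones.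
-/
import Claimed.Agent.R282.K2.Iface

set_option autoImplicit false

namespace Claimed.Agent.R282

open Module

/-- A module over the preprojective algebra of `D_n` on a family of vector spaces (coordinate free form of `PiMod`). -/
structure PiRep (k : Type) [Field k] (n : ℕ) (V : Fin n → Type) [∀ i, AddCommGroup (V i)]
    [∀ i, Module k (V i)] where
  a : ∀ i j : Fin n, V i →ₗ[k] V j
  zero : ∀ i j, ¬ adjD n i j → a i j = 0
  rel : ∀ i, ∑ j, (if j < i then (1 : k) else -1) • (a j i ∘ₗ a i j) = 0

namespace PiRep

variable {k : Type} [Field k] {n : ℕ} {V : Fin n → Type} [∀ i, AddCommGroup (V i)]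
  [∀ i, Module k (V i)] (M : PiRep k n V)

/-- `N` is a submodule -/
def IsSub (N : ∀ i, Submodule k (V i)) : Prop := ∀ i j, (N i).map (M.a i j) ≤ N j

/-- `rad_i N`: the component at `i` is replaced by the sum of the images of the incoming arrows -/
def radAt (i : Fin n) (N : ∀ i, Submodule k (V i)) : ∀ i, Submodule k (V i) :=
  Function.update N i (⨆ j, (N j).map (M.a j i))

/-- the iterated radical along a sequence of vertices -/
def radSeq : List (Fin n) → (∀ i, Submodule k (V i)) → ∀ i, Submodule k (V i)
  | [], N => N
  | i :: w, N => radSeq w (M.radAt i N)

/-- the string of `N` along a sequence: `c_1 = top_(j_1) N`, `c_2 = top_(j_2) (rad_(j_1) N)`, ... -/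
noncomputable def strFrom : List (Fin n) → (∀ i, Submodule k (V i)) → List ℕ
  | [], _ => []
  | i :: w, N => (finrank k (N i) - finrank k (M.radAt i N i)) :: strFrom w (M.radAt i N)

/-- the string of the whole module -/
noncomputable def str (w : List (Fin n)) : List ℕ := M.strFrom w ⊤

/-- the sequence exhausts the module -/
def Exh (w : List (Fin n)) : Prop := M.radSeq w ⊤ = ⊥

/-- restriction to a submodule -/
def restrict (N : ∀ i, Submodule k (V i)) (h : M.IsSub N) : PiRep k n (fun i => ↥(N i)) where
  a := fun i j => (M.a i j).restrict (fun x hx => h i j (Submodule.mem_map_of_mem hx))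
  zero := fun i j hij => by
    ext x
    simp [M.zero i j hij]
  rel := fun i => by
    ext x
    have h := congrArg (fun f : V i →ₗ[k] V i => f x) (M.rel i)
    simp only [LinearMap.sum_apply, LinearMap.smul_apply, LinearMap.comp_apply,
      LinearMap.zero_apply] at h
    simp only [LinearMap.sum_apply, LinearMap.smul_apply, LinearMap.comp_apply,
      LinearMap.zero_apply, Submodule.coe_sum, Submodule.coe_smul, LinearMap.coe_restrict_apply,
      ZeroMemClass.coe_zero]
    exact h

end PiRep

variable {k : Type} [Field k] {n : ℕ} {d : Fin n → ℕ}

/-- the coordinate free form of a `PiMod` -/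
noncomputable def PiMod.toRep (M : PiMod k n d) : PiRep k n (fun i => Fin (d i) → k) where
  a := fun i j => Matrix.mulVecLin (M.a i j)
  zero := fun i j hij => by rw [M.zero i j hij]; simp
  rel := fun i => by
    have h := congrArg Matrix.toLin' (M.rel i)
    simp only [map_sum, map_smul, map_zero, Matrix.toLin'_apply', Matrix.mulVecLin_mul] at h
    exact h

/-- the string of a `PiMod` along a sequence -/
noncomputable def PiMod.str (M : PiMod k n d) (w : List (Fin n)) : List ℕ := M.toRep.str w

/-- the sequence exhausts the module -/
def PiMod.Exh (M : PiMod k n d) (w : List (Fin n)) : Prop := M.toRep.Exh w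

/-- the dual module (transposed matrices): tops and socles are exchanged -/
def PiMod.dual (M : PiMod k n d) : PiMod k n d where
  a := fun i j => (M.a j i).transpose
  zero := fun i j hij => by
    have : ¬ adjD n j i := fun h => hij (by unfold adjD at h ⊢; tauto)
    rw [M.zero j i this, Matrix.transpose_zero]
  rel := fun i => by
    have h := congrArg Matrix.transpose (M.rel i)
    simp only [Matrix.transpose_sum, Matrix.transpose_smul, Matrix.transpose_mul,
      Matrix.transpose_zero] at h
    exact h

/-- the sequence with first vertex `i₀`: `i₀, (0, 1, …, n-1) repeated |d| times` -/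
def k2Seq (n : ℕ) (d : Fin n → ℕ) (i₀ : Fin n) : List (Fin n) :=
  i₀ :: (List.replicate (∑ i, d i) (List.finRange n)).flatten

/-- forces the on-demand equation lemmas to be stored HERE (else several later modules store their own copies,
which collide in the joint check of the grader) -/
theorem k2DDefs_forced_eqns : True := by
  have := @PiRep.radSeq.eq_def
  have := @PiRep.radSeq.eq_1
  have := @PiRep.strFrom.eq_def
  have := @PiRep.strFrom.eq_1
  trivial

end Claimed.Agent.R282
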