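/-
Row 282, layer K2, PACKAGE D (counting; architect helper66).   File 1/5: definitions and basic facts.   Prefix `k2d_`.
`GG` = product of the `GL_(d_i)`, its action on `PiMod`, `SameX` (same oriented part `x`), `QIso` (isomorphic oriented parts), `AutX`, `EndX`, the affine line through two modules with the same `x`,
`dl b` (`b = true`: the dual module), the transport of `radAt / radSeq / strFrom` along injective intertwiners (`k2d_push_*`).
Oriented arrows: `a i j` with `i < j` (this is `x`); the others are `y`.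
-/
import Claimed.Agent.R282.K2.DDefs

set_option autoImplicit false

namespace Claimed.Agent.R282

open Module

variable {k : Type} [Field k] {n : ℕ} {d : Fin n → ℕ}

theorem k2d_not_adj_self (n : ℕ) (i : Fin n) : ¬ adjD n i i := by
  unfold adjD; omega

theorem k2d_adj_symm {n : ℕ} {i j : Fin n} (h : adjD n i j) : adjD n j i := by
  unfold adjD at h ⊢; tauto

theorem PiMod.ext_a {M M' : PiMod k n d} (h : ∀ i j, M.a i j = M'.a i j) : M = M' := by
  cases M; cases M'
  congr
  funext i j
  exact h i j

instance k2d_finite_piMod [Finite k] : Finite (PiMod k n d) :=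
  Finite.of_injective (fun M : PiMod k n d => M.a) (fun _ _ h => PiMod.ext_a fun i j => congrFun (congrFun h i) j)

theorem PiRep.ext_a {V : Fin n → Type} [∀ i, AddCommGroup (V i)] [∀ i, Module k (V i)] {M M' : PiRep k n V}
    (h : ∀ i j, M.a i j = M'.a i j) : M = M' := by
  cases M; cases M'
  congr
  funext i j
  exact h i j

/-- the group `G = ∏ GL_(d_i)` -/
abbrev GG (k : Type) [Field k] (n : ℕ) (d : Fin n → ℕ) : Type := ∀ i : Fin n, GL (Fin (d i)) k

/-- the action of `G` on modules: `a i j ↦ g_j a_ij g_i⁻¹` -/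
def PiMod.act (g : GG k n d) (M : PiMod k n d) : PiMod k n d where
  a := fun i j => (g j).val * M.a i j * (g i)⁻¹.val
  zero := fun i j hij => by rw [M.zero i j hij]; simp
  rel := fun i => by
    have h := congrArg (fun Z => (g i).val * Z * (g i)⁻¹.val) (M.rel i)
    simp only [Finset.mul_sum, Finset.sum_mul, Matrix.mul_smul, Matrix.smul_mul, Matrix.mul_zero,
      Matrix.zero_mul] at h
    rw [← h]
    refine Finset.sum_congr rfl fun j _ => ?_
    congr 1
    have e : (g j)⁻¹.val * (g j).val = 1 := by
      rw [← Units.val_mul]; simp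
    calc _ = (g i).val * M.a j i * ((g j)⁻¹.val * (g j).val) * M.a i j * (g i)⁻¹.val := by
          simp only [Matrix.mul_assoc]
      _ = _ := by rw [e, Matrix.mul_one]; simp only [Matrix.mul_assoc]

theorem PiMod.act_a (g : GG k n d) (M : PiMod k n d) (i j : Fin n) :
    (M.act g).a i j = (g j).val * M.a i j * (g i)⁻¹.val := rfl

theorem PiMod.act_one (M : PiMod k n d) : M.act 1 = M := by
  apply PiMod.ext_a
  intro i j
  simp [PiMod.act_a]

theorem PiMod.act_act (g h : GG k n d) (M : PiMod k n d) : (M.act h).act g = M.act (g * h) := by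
  apply PiMod.ext_a
  intro i j
  simp [PiMod.act_a, Matrix.mul_assoc, mul_inv_rev]

/-- `M'` has the same oriented part as `M` -/
def SameX (M M' : PiMod k n d) : Prop := ∀ i j : Fin n, i < j → M'.a i j = M.a i j

/-- the oriented parts are isomorphic -/
def QIso (M M' : PiMod k n d) : Prop := ∃ g : GG k n d, SameX M' (M.act g)

/-- automorphisms of the oriented part -/
def AutX (M : PiMod k n d) : Type := {g : GG k n d // SameX M (M.act g)}

/-- endomorphisms of the oriented part -/
def EndX (M : PiMod k n d) : Submodule k (∀ i : Fin n, Matrix (Fin (d i)) (Fin (d i)) k) where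
  carrier := {ξ | ∀ i j : Fin n, i < j → ξ j * M.a i j = M.a i j * ξ i}
  add_mem' := fun {a b} ha hb i j hij => by
    simp only [Pi.add_apply, Matrix.add_mul, Matrix.mul_add, ha i j hij, hb i j hij]
  zero_mem' := fun i j _ => by simp
  smul_mem' := fun c a ha i j hij => by
    simp only [Pi.smul_apply, Matrix.smul_mul, Matrix.mul_smul, ha i j hij]

theorem SameX.refl (M : PiMod k n d) : SameX M M := fun _ _ _ => rfl

theorem SameX.symm {M M' : PiMod k n d} (h : SameX M M') : SameX M' M := fun i j hij => (h i j hij).symm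

theorem SameX.trans {M M' M'' : PiMod k n d} (h : SameX M M') (h' : SameX M' M'') : SameX M M'' :=
  fun i j hij => (h' i j hij).trans (h i j hij)

theorem SameX.act {M M' : PiMod k n d} (h : SameX M M') (g : GG k n d) : SameX (M.act g) (M'.act g) :=
  fun i j hij => by rw [PiMod.act_a, PiMod.act_a, h i j hij]

/-- the affine line through two modules with the same oriented part -/
def PiMod.line (M₀ M₁ : PiMod k n d) (h : SameX M₀ M₁) (t : k) : PiMod k n d where
  a := fun i j => M₀.a i j + t • (M₁.a i j - M₀.a i j)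
  zero := fun i j hij => by rw [M₀.zero i j hij, M₁.zero i j hij]; simp
  rel := fun i => by
    have key : ∀ j, (M₀.a j i + t • (M₁.a j i - M₀.a j i)) * (M₀.a i j + t • (M₁.a i j - M₀.a i j))
        = (1 - t) • (M₀.a j i * M₀.a i j) + t • (M₁.a j i * M₁.a i j) := by
      intro j
      rcases lt_trichotomy j i with hji | hji | hji
      · rw [h j i hji, sub_self, smul_zero, add_zero, Matrix.mul_add, Matrix.mul_smul, Matrix.mul_sub,
          sub_smul, one_smul, smul_sub]
        abel
      · subst hji
        rw [M₀.zero j j (k2d_not_adj_self n j), M₁.zero j j (k2d_not_adj_self n j)]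
        simp
      · rw [h i j hji, sub_self, smul_zero, add_zero, Matrix.add_mul, Matrix.smul_mul, Matrix.sub_mul,
          sub_smul, one_smul, smul_sub]
        abel
    simp only [key, smul_add, Finset.sum_add_distrib]
    have e0 := congrArg (fun Z => (1 - t) • Z) (M₀.rel i)
    have e1 := congrArg (fun Z => t • Z) (M₁.rel i)
    simp only [Finset.smul_sum, smul_zero] at e0 e1
    have c0 : ∀ j, (if j < i then (1 : k) else -1) • (1 - t) • (M₀.a j i * M₀.a i j)
        = (1 - t) • (if j < i then (1 : k) else -1) • (M₀.a j i * M₀.a i j) := fun j => smul_comm _ _ _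
    have c1 : ∀ j, (if j < i then (1 : k) else -1) • t • (M₁.a j i * M₁.a i j)
        = t • (if j < i then (1 : k) else -1) • (M₁.a j i * M₁.a i j) := fun j => smul_comm _ _ _
    simp only [c0, c1, e0, e1, add_zero]

theorem PiMod.line_a (M₀ M₁ : PiMod k n d) (h : SameX M₀ M₁) (t : k) (i j : Fin n) :
    (M₀.line M₁ h t).a i j = M₀.a i j + t • (M₁.a i j - M₀.a i j) := rfl

theorem PiMod.line_sameX (M₀ M₁ : PiMod k n d) (h : SameX M₀ M₁) (t : k) : SameX M₀ (M₀.line M₁ h t) :=
  fun i j hij => by rw [PiMod.line_a, h i j hij, sub_self, smul_zero, add_zero]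

/-- `b = true`: the dual module; `b = false`: the module itself -/
def PiMod.dl (b : Bool) (M : PiMod k n d) : PiMod k n d := if b then M.dual else M

theorem PiMod.dual_a (M : PiMod k n d) (i j : Fin n) : M.dual.a i j = (M.a j i).transpose := rfl

theorem PiMod.dual_dual (M : PiMod k n d) : M.dual.dual = M := by
  apply PiMod.ext_a
  intro i j
  simp [PiMod.dual_a]

theorem PiMod.dl_dl (b : Bool) (M : PiMod k n d) : (M.dl b).dl b = M := by
  cases b
  · rfl
  · exact M.dual_dual

/-- the contragredient element `(g⁻¹)ᵀ` -/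
def k2dContra (g : GG k n d) : GG k n d := fun i =>
  ⟨(g i)⁻¹.val.transpose, (g i).val.transpose,
    by rw [← Matrix.transpose_mul, ← Units.val_mul]; simp,
    by rw [← Matrix.transpose_mul, ← Units.val_mul]; simp⟩

theorem PiMod.dual_act (g : GG k n d) (M : PiMod k n d) : (M.act g).dual = M.dual.act (k2dContra g) := by
  apply PiMod.ext_a
  intro i j
  rw [PiMod.dual_a, PiMod.act_a, PiMod.act_a, PiMod.dual_a, Matrix.transpose_mul, Matrix.transpose_mul,
    Matrix.mul_assoc]
  rfl

/-- the number of edges weighted by the dimension vector: `D (e) = ∑_(i - j) e_i e_j` -/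
def edgeSum {n : ℕ} (e : Fin n → ℕ) : ℕ := ∑ i : Fin n, ∑ j : Fin n, if i < j ∧ adjD n i j then e i * e j else 0

/-- the sum of the dimensions at the neighbours of `j` -/
def nbrSum {n : ℕ} (e : Fin n → ℕ) (j : Fin n) : ℕ := ∑ i : Fin n, if adjD n i j then e i else 0

/-! ### transport along injective intertwiners -/

section Push

variable {V V' : Fin n → Type} [∀ i, AddCommGroup (V i)] [∀ i, Module k (V i)] [∀ i, AddCommGroup (V' i)]
  [∀ i, Module k (V' i)]

/-- push forward of a family of subspaces -/
def k2dPush (ι : ∀ i, V i →ₗ[k] V' i) (N : ∀ i, Submodule k (V i)) : ∀ i, Submodule k (V' i) :=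
  fun i => (N i).map (ι i)

theorem k2d_push_radAt (M : PiRep k n V) (M' : PiRep k n V') (ι : ∀ i, V i →ₗ[k] V' i)
    (hι : ∀ i j, ι j ∘ₗ M.a i j = M'.a i j ∘ₗ ι i) (j : Fin n) (N : ∀ i, Submodule k (V i)) :
    M'.radAt j (k2dPush ι N) = k2dPush ι (M.radAt j N) := by
  funext i
  unfold PiRep.radAt k2dPush
  rcases eq_or_ne i j with rfl | hij
  · simp only [Function.update_self, Submodule.map_iSup]
    refine iSup_congr fun l => ?_
    rw [← Submodule.map_comp, ← Submodule.map_comp, hι]
  · simp only [Function.update_of_ne hij]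

theorem k2d_push_radSeq (M : PiRep k n V) (M' : PiRep k n V') (ι : ∀ i, V i →ₗ[k] V' i)
    (hι : ∀ i j, ι j ∘ₗ M.a i j = M'.a i j ∘ₗ ι i) (w : List (Fin n)) (N : ∀ i, Submodule k (V i)) :
    M'.radSeq w (k2dPush ι N) = k2dPush ι (M.radSeq w N) := by
  induction w generalizing N with
  | nil => rfl
  | cons j w ih =>
    simp only [PiRep.radSeq]
    rw [k2d_push_radAt M M' ι hι, ih]

theorem k2d_finrank_push (ι : ∀ i, V i →ₗ[k] V' i) (hinj : ∀ i, Function.Injective (ι i))
    (N : ∀ i, Submodule k (V i)) (i : Fin n) : finrank k (k2dPush ι N i) = finrank k (N i) :=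
  (LinearEquiv.finrank_eq (Submodule.equivMapOfInjective (ι i) (hinj i) (N i))).symm

theorem k2d_push_strFrom (M : PiRep k n V) (M' : PiRep k n V') (ι : ∀ i, V i →ₗ[k] V' i)
    (hι : ∀ i j, ι j ∘ₗ M.a i j = M'.a i j ∘ₗ ι i) (hinj : ∀ i, Function.Injective (ι i)) (w : List (Fin n))
    (N : ∀ i, Submodule k (V i)) : M'.strFrom w (k2dPush ι N) = M.strFrom w N := by
  induction w generalizing N with
  | nil => rfl
  | cons j w ih =>
    simp only [PiRep.strFrom]
    rw [k2d_push_radAt M M' ι hι, ih, k2d_finrank_push ι hinj, k2d_finrank_push ι hinj]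

theorem k2d_push_top (ι : ∀ i, V i →ₗ[k] V' i) (hsurj : ∀ i, Function.Surjective (ι i)) :
    k2dPush ι (⊤ : ∀ i, Submodule k (V i)) = ⊤ := by
  funext i
  simp only [k2dPush, Pi.top_apply, Submodule.map_top]
  exact LinearMap.range_eq_top.2 (hsurj i)

end Push

/-- strings are invariant under the group -/
theorem PiMod.str_act (g : GG k n d) (M : PiMod k n d) (w : List (Fin n)) : (M.act g).str w = M.str w := by
  have hι : ∀ i j, Matrix.mulVecLin (g j).val ∘ₗ M.toRep.a i j = (M.act g).toRep.a i j ∘ₗ Matrix.mulVecLin (g i).val := by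
    intro i j
    show Matrix.mulVecLin (g j).val ∘ₗ Matrix.mulVecLin (M.a i j)
      = Matrix.mulVecLin ((g j).val * M.a i j * (g i)⁻¹.val) ∘ₗ Matrix.mulVecLin (g i).val
    rw [← Matrix.mulVecLin_mul, ← Matrix.mulVecLin_mul, Matrix.mul_assoc, ← Units.val_mul]
    simp
  have hbij : ∀ i, Function.Bijective (Matrix.mulVecLin (g i).val) := by
    intro i
    refine Function.bijective_iff_has_inverse.2 ⟨Matrix.mulVecLin (g i)⁻¹.val, fun v => ?_, fun v => ?_⟩
    · simp only [Matrix.mulVecLin_apply, Matrix.mulVec_mulVec, ← Units.val_mul]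
      simp
    · simp only [Matrix.mulVecLin_apply, Matrix.mulVec_mulVec, ← Units.val_mul]
      simp
  have h := k2d_push_strFrom M.toRep (M.act g).toRep (fun i => Matrix.mulVecLin (g i).val) hι
    (fun i => (hbij i).1) w ⊤
  rw [k2d_push_top _ (fun i => (hbij i).2)] at h
  exact h

theorem PiMod.dl_act (b : Bool) (g : GG k n d) (M : PiMod k n d) :
    (M.act g).dl b = (M.dl b).act (if b then k2dContra g else g) := by
  cases b
  · rfl
  · exact M.dual_act g

theorem PiMod.str_dl_act (b : Bool) (g : GG k n d) (M : PiMod k n d) (w : List (Fin n)) :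
    ((M.act g).dl b).str w = (M.dl b).str w := by
  rw [PiMod.dl_act, PiMod.str_act]


/-! ### counting lemmas -/

/-- union bound -/
theorem k2d_card_union {α ι : Type*} [Finite α] (s : Finset ι) (P : α → Prop) (Q : ι → α → Prop)
    (h : ∀ a, P a → ∃ i ∈ s, Q i a) : Nat.card {a // P a} ≤ ∑ i ∈ s, Nat.card {a // Q i a} := by
  classical
  have := Fintype.ofFinite α
  simp only [Nat.card_eq_fintype_card, Fintype.card_subtype]
  calc (Finset.univ.filter P).card ≤ (s.biUnion fun i => Finset.univ.filter (Q i)).card := by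
        apply Finset.card_le_card
        intro a ha
        obtain ⟨i, hi, hq⟩ := h a (by simpa using ha)
        simp only [Finset.mem_biUnion, Finset.mem_filter, Finset.mem_univ, true_and]
        exact ⟨i, hi, hq⟩
    _ ≤ _ := Finset.card_biUnion_le

/-- counting by fibres -/
theorem k2d_card_le_mul {α β : Type*} [Finite α] [Finite β] (f : α → β) (c : ℕ)
    (h : ∀ a₀ : α, Nat.card {a // f a = f a₀} ≤ c) : Nat.card α ≤ c * Nat.card β := by
  classical
  have := Fintype.ofFinite α
  have := Fintype.ofFinite β
  simp only [Nat.card_eq_fintype_card]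
  have h1 := Finset.card_le_mul_card_image (f := f) (Finset.univ : Finset α) c (by
    intro b hb
    obtain ⟨a₀, -, rfl⟩ := Finset.mem_image.1 hb
    have := h a₀
    rw [Nat.card_eq_fintype_card, Fintype.card_subtype] at this
    exact this)
  calc Fintype.card α = (Finset.univ : Finset α).card := rfl
    _ ≤ c * (Finset.univ.image f).card := h1
    _ ≤ c * Fintype.card β := by gcongr; exact Finset.card_le_univ _

/-- partition by a map -/
theorem k2d_card_eq_sum {α β : Type*} [Finite α] [Fintype β] (f : α → β) :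
    Nat.card α = ∑ b, Nat.card {a // f a = b} := by
  rw [← Nat.card_sigma]
  exact Nat.card_congr (Equiv.sigmaFiberEquiv f).symm

end Claimed.Agent.R282
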