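/-
Row 282, layer K2, PACKAGE D (counting; architect helper66).   File 3/5: genericity `D2`.   For a fixed oriented part `x` all but a fraction `K / (q - 1)` of the modules `(x, y)` have the same string.
No algebraic geometry: ranks along an affine line `M_t = M_0 + t (M_1 - M_0)` can only drop at `≤ d_i s` values of `t` (polynomial extension of vectors + one determinant), then double counting.
Statements FROZEN; several owners: touch only your theorems; helper lemmas directly above your theorem, prefix `k2d_`.   `q = Fintype.card k`.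
-/
import Claimed.Agent.R282.K2.DBasic

set_option autoImplicit false

namespace Claimed.Agent.R282

open Module Polynomial

variable {k : Type} [Field k] {n : ℕ} {d : Fin n → ℕ}

/-- the dimension of the `i`-th component of the iterated radical along `u` -/
noncomputable def PiMod.rk (M : PiMod k n d) (u : List (Fin n)) (i : Fin n) : ℕ :=
  finrank k (M.toRep.radSeq u ⊤ i)

/-- evaluation of a polynomial vector -/
noncomputable def k2dEv {m : ℕ} (v : Fin m → k[X]) (t : k) : Fin m → k := fun a => (v a).eval t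

/-- polynomial extension property of degree `s` for a family (indexed by `t`) of subspaces of `k^m` -/
def k2dPE1 {m : ℕ} (N : k → Submodule k (Fin m → k)) (s : ℕ) : Prop :=
  ∀ u ∈ N 0, ∃ v : Fin m → k[X], (∀ a, (v a).natDegree ≤ s) ∧ k2dEv v 0 = u ∧ ∀ t, k2dEv v t ∈ N t

/-- the same for families of subspaces indexed by the vertices -/
def k2dPE (N : k → ∀ i, Submodule k (Fin (d i) → k)) (s : ℕ) : Prop := ∀ i, k2dPE1 (fun t => N t i) s

/-- **L-K2D-PE.**  (constant polynomials `v a = C (u a)`) -/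
theorem k2d_PE_top : k2dPE (d := d) (fun _ : k => ⊤) 0 := by
  intro i u _
  refine ⟨fun a => C (u a), fun a => by simp, ?_, fun t => Submodule.mem_top⟩
  funext a
  simp [k2dEv]

/-- **L-K2D-PE.**  One step.   `i ≠ j`: the component does not change (`Function.update_of_ne`), degree `≤ s ≤ s + 1`.   `i = j`: `u ∈ ⨆ l, (N 0 l).map (a_lj)`, so `u = ∑ l, (A l j + 0 • B l j) *ᵥ u_l` with `u_l ∈ N 0 l`
(`Submodule.mem_iSup_iff_exists_finsupp` / induction `Submodule.iSup_induction`: the property "has an extension of degree `≤ s + 1`" is stable under sums and holds on each `(N 0 l).map _`; this avoids the explicit decomposition);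
for `u = (Mt 0).a l j *ᵥ u'`, `v'` an extension of `u'`: `v = ((A l j).map C + X • (B l j).map C) *ᵥ v'`; `eval t` commutes with `mulVec` (`RingHom.map_mulVec` for `Polynomial.evalRingHom t`, or expand `Matrix.mulVec`, `dotProduct`, `eval_finset_sum`);
degree: each entry of the matrix has `natDegree ≤ 1` (`natDegree_add_le`, `natDegree_C`, `natDegree_X_mul_C…`), `natDegree_sum_le_of_forall_le`, `natDegree_mul_le`. -/
theorem k2d_PE_radAt (Mt : k → PiMod k n d) (A B : ∀ i j : Fin n, Matrix (Fin (d j)) (Fin (d i)) k)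
    (h : ∀ t i j, (Mt t).a i j = A i j + t • B i j) (N : k → ∀ i, Submodule k (Fin (d i) → k)) (s : ℕ)
    (hN : k2dPE N s) (j : Fin n) : k2dPE (fun t => (Mt t).toRep.radAt j (N t)) (s + 1) := by
  intro i
  rcases eq_or_ne i j with rfl | hij
  · intro u hu
    simp only [PiRep.radAt, Function.update_self] at hu ⊢
    induction hu using Submodule.iSup_induction' with
    | mem l u hu =>
      obtain ⟨u', hu', rfl⟩ := hu
      obtain ⟨v', hdeg, h0, hmem⟩ := hN l u' hu'
      refine ⟨fun a => ∑ c, (C (A l i a c) + X * C (B l i a c)) * v' c, fun a => ?_, ?_, fun t => ?_⟩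
      · refine natDegree_sum_le_of_forall_le _ _ fun c _ => ?_
        refine le_trans natDegree_mul_le ?_
        have h1 : (C (A l i a c) + X * C (B l i a c)).natDegree ≤ 1 := by
          refine le_trans (natDegree_add_le _ _) ?_
          rw [natDegree_C]
          refine max_le (Nat.zero_le _) ?_
          refine le_trans natDegree_mul_le ?_
          rw [natDegree_C]
          simp
        have := hdeg c
        omega
      · funext a
        show _ = ((Mt 0).a l i).mulVec u' a
        rw [← h0, h 0 l i]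
        simp [k2dEv, eval_finsetSum, Matrix.mulVec, dotProduct]
      · refine Submodule.mem_iSup_of_mem l ⟨k2dEv v' t, hmem t, ?_⟩
        funext a
        show ((Mt t).a l i).mulVec (k2dEv v' t) a = _
        rw [h t l i]
        simp [k2dEv, eval_finsetSum, Matrix.mulVec, dotProduct, mul_comm t]
    | zero =>
      exact ⟨fun _ => 0, fun a => by simp, by funext a; simp [k2dEv], fun t => by
        have : k2dEv (fun _ : Fin (d i) => (0 : k[X])) t = 0 := by funext a; simp [k2dEv]
        rw [this]; exact Submodule.zero_mem _⟩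
    | add x y _ _ hx hy =>
      obtain ⟨v₁, hd₁, h₁, hm₁⟩ := hx
      obtain ⟨v₂, hd₂, h₂, hm₂⟩ := hy
      refine ⟨fun a => v₁ a + v₂ a, fun a => le_trans (natDegree_add_le _ _) (max_le (hd₁ a) (hd₂ a)), ?_, fun t => ?_⟩
      · rw [← h₁, ← h₂]; funext a; simp [k2dEv]
      · have : k2dEv (fun a => v₁ a + v₂ a) t = k2dEv v₁ t + k2dEv v₂ t := by funext a; simp [k2dEv]
        rw [this]; exact Submodule.add_mem _ (hm₁ t) (hm₂ t)
  · intro u hu
    simp only [PiRep.radAt, Function.update_of_ne hij] at hu ⊢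
    obtain ⟨v, hdeg, h0, hmem⟩ := hN i u hu
    exact ⟨v, fun a => le_trans (hdeg a) (Nat.le_succ _), h0, hmem⟩

theorem k2d_PE_radSeq (Mt : k → PiMod k n d) (A B : ∀ i j : Fin n, Matrix (Fin (d j)) (Fin (d i)) k)
    (h : ∀ t i j, (Mt t).a i j = A i j + t • B i j) (w : List (Fin n)) (N : k → ∀ i, Submodule k (Fin (d i) → k))
    (s : ℕ) (hN : k2dPE N s) : k2dPE (fun t => (Mt t).toRep.radSeq w (N t)) (s + w.length) := by
  induction w generalizing N s with
  | nil => exact hN
  | cons j w ih =>
    have := ih (fun t => (Mt t).toRep.radAt j (N t)) (s + 1) (k2d_PE_radAt Mt A B h N s hN j)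
    simp only [List.length_cons]
    rw [show s + (w.length + 1) = s + 1 + w.length by ring]
    exact this

/-- **L-K2D-DET0.**  a determinant of polynomials of degree `≤ s`.  (`Matrix.det_apply`, `natDegree_sum_le_of_forall_le`, `natDegree_smul_le`, `natDegree_prod_le_of_le` / `natDegree_prod_le` + `Finset.sum_le_card_nsmul`.) -/
theorem k2d_natDegree_det {ρ : ℕ} (Q : Matrix (Fin ρ) (Fin ρ) k[X]) (s : ℕ) (h : ∀ a b, (Q a b).natDegree ≤ s) :
    Q.det.natDegree ≤ ρ * s := by
  rw [Matrix.det_apply']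
  refine natDegree_sum_le_of_forall_le _ _ fun σ _ => ?_
  refine le_trans natDegree_mul_le ?_
  have h1 : ((((Equiv.Perm.sign σ : ℤˣ) : ℤ) : k[X])).natDegree = 0 := natDegree_intCast _
  rw [h1, zero_add]
  refine le_trans (natDegree_prod_le _ _) ?_
  calc ∑ i : Fin ρ, (Q (σ i) i).natDegree ≤ ∑ _i : Fin ρ, s := Finset.sum_le_sum fun i _ => h _ _
    _ = ρ * s := by simp

/-- **L-K2D-DET.**  From polynomial extension to the number of bad parameters.
Route.  `ρ = finrank (N 0) ≤ m`.   Basis `u : Fin ρ → k^m` of `N 0` (`Module.finBasis`, coerced), extensions `v b`.   `π : (Fin m → k) →ₗ (Fin ρ → k)` with `π (u b) = Pi.single b 1` (left inverse of the injective map `c ↦ ∑ c_b u_b`: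
`LinearMap.exists_leftInverse_of_injective`).   `Q a b = ∑ c, C (π (Pi.single c 1) a) * v b c`; then `(Q a b).eval t = π (k2dEv (v b) t) a`, `natDegree ≤ s`.   `Δ = Q.det`: `Δ.eval t = det (Q.map (eval t))` (`RingHom.map_det`), `Δ.eval 0 = det 1 = 1`, so `Δ ≠ 0`,
`natDegree Δ ≤ ρ s` (`k2d_natDegree_det`).   If `Δ.eval t ≠ 0` the columns `π (v_b (t))` are linearly independent (`Matrix.linearIndependent_cols_iff_isUnit` …), hence so are the `v_b (t) ∈ N t` (`LinearIndependent.of_comp`), hence `ρ ≤ finrank (N t)`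
(`LinearIndependent.fintype_card_le_finrank` in `↥(N t)`).   So the bad set is contained in `Δ.roots.toFinset`; `Polynomial.card_roots'`. -/
theorem k2d_PE_card [Fintype k] {m : ℕ} (N : k → Submodule k (Fin m → k)) (s : ℕ) (h : k2dPE1 N s) :
    Nat.card {t : k // finrank k (N t) < finrank k (N 0)} ≤ m * s := by
  classical
  set ρ := finrank k (N 0) with hρ
  have hρm : ρ ≤ m := by
    have := Submodule.finrank_le (N 0)
    rwa [Module.finrank_fin_fun] at this
  let b := Module.finBasis k (N 0)
  choose v hdeg h0 hmem using fun b' : Fin ρ => h (b b') (b b').2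
  let ι : (Fin ρ → k) →ₗ[k] (Fin m → k) := (N 0).subtype ∘ₗ b.equivFun.symm.toLinearMap
  have hιinj : LinearMap.ker ι = ⊥ := by
    rw [LinearMap.ker_eq_bot]
    exact Subtype.val_injective.comp b.equivFun.symm.injective
  obtain ⟨π, hπ⟩ := LinearMap.exists_leftInverse_of_injective ι hιinj
  have hπu : ∀ b' : Fin ρ, π (b b' : Fin m → k) = Pi.single b' 1 := by
    intro b'
    have h1 : ι (Pi.single b' 1) = (b b' : Fin m → k) := by
      simp [ι]
    rw [← h1]
    exact congrArg (fun f : (Fin ρ → k) →ₗ[k] (Fin ρ → k) => f (Pi.single b' 1)) hπ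
  let Q : Matrix (Fin ρ) (Fin ρ) k[X] := fun a b' => ∑ c, C (π (Pi.single c 1) a) * v b' c
  have hQeval : ∀ t a b', (Q a b').eval t = π (k2dEv (v b') t) a := by
    intro t a b'
    have h1 : k2dEv (v b') t = ∑ c, (k2dEv (v b') t c) • (Pi.single c (1 : k) : Fin m → k) := by
      funext x
      simp [Finset.sum_apply, Pi.single_apply]
    rw [h1, map_sum]
    simp only [Q, eval_finsetSum, eval_mul, eval_C, map_smul, Finset.sum_apply, Pi.smul_apply, smul_eq_mul]
    refine Finset.sum_congr rfl fun c _ => ?_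
    rw [mul_comm]; rfl
  have hQdeg : ∀ a b', (Q a b').natDegree ≤ s := by
    intro a b'
    refine natDegree_sum_le_of_forall_le _ _ fun c _ => ?_
    refine le_trans natDegree_mul_le ?_
    rw [natDegree_C, zero_add]
    exact hdeg b' c
  set Δ := Q.det with hΔ
  have hΔeval : ∀ t, Δ.eval t = (Matrix.of fun a b' => π (k2dEv (v b') t) a).det := by
    intro t
    have := RingHom.map_det (evalRingHom t) Q
    rw [coe_evalRingHom] at this
    rw [hΔ, this]
    congr 1
    ext a b'
    simp only [RingHom.mapMatrix_apply, Matrix.map_apply, coe_evalRingHom, Matrix.of_apply]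
    exact hQeval t a b'
  have hΔ0 : Δ ≠ 0 := by
    intro hz
    have h1 := hΔeval 0
    rw [hz, eval_zero] at h1
    have h2 : (Matrix.of fun a b' => π (k2dEv (v b') 0) a) = (1 : Matrix (Fin ρ) (Fin ρ) k) := by
      ext a b'
      rw [Matrix.of_apply, h0, hπu, Matrix.one_apply, Pi.single_apply]
    rw [h2, Matrix.det_one] at h1
    exact zero_ne_one h1
  have hgood : ∀ t, Δ.eval t ≠ 0 → ρ ≤ finrank k (N t) := by
    intro t ht
    rw [hΔeval t] at ht
    have hli : LinearIndependent k (fun b' : Fin ρ => (⟨k2dEv (v b') t, hmem b' t⟩ : ↥(N t))) := by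
      rw [Fintype.linearIndependent_iff]
      intro g hg
      have h1 := congrArg (fun x : ↥(N t) => π (x : Fin m → k)) hg
      simp only [Submodule.coe_sum, Submodule.coe_smul, map_sum, map_smul, ZeroMemClass.coe_zero, map_zero] at h1
      have h2 : (Matrix.of fun a b' => π (k2dEv (v b') t) a).mulVec g = 0 := by
        funext a
        have := congrFun h1 a
        simp only [Finset.sum_apply, Pi.smul_apply, smul_eq_mul, Pi.zero_apply] at this
        simp only [Matrix.mulVec, dotProduct, Matrix.of_apply, Pi.zero_apply]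
        rw [← this]
        exact Finset.sum_congr rfl fun c _ => mul_comm _ _
      have h3 := Matrix.eq_zero_of_mulVec_eq_zero ht h2
      exact fun i => congrFun h3 i
    have := hli.fintype_card_le_finrank
    simpa using this
  calc Nat.card {t : k // finrank k (N t) < ρ} ≤ Nat.card ↥(Δ.roots.toFinset) := by
        refine Nat.card_le_card_of_injective (fun t => ⟨t.1, ?_⟩) ?_
        · rw [Multiset.mem_toFinset, mem_roots hΔ0, IsRoot.def]
          by_contra hne
          have := hgood t.1 hne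
          have := t.2
          omega
        · intro t t' htt
          exact Subtype.ext (congrArg (fun x => x.1) htt)
    _ = Δ.roots.toFinset.card := by rw [Nat.card_eq_fintype_card, Fintype.card_coe]
    _ ≤ Multiset.card Δ.roots := Multiset.toFinset_card_le _
    _ ≤ Δ.natDegree := card_roots' _
    _ ≤ ρ * s := k2d_natDegree_det Q s hQdeg
    _ ≤ m * s := Nat.mul_le_mul_right _ hρm

/-- **(LINE)**  along an affine line of modules a rank drops at most at `d_i |u|` parameters. -/
theorem k2d_line [Fintype k] (Mt : k → PiMod k n d) (A B : ∀ i j : Fin n, Matrix (Fin (d j)) (Fin (d i)) k)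
    (h : ∀ t i j, (Mt t).a i j = A i j + t • B i j) (u : List (Fin n)) (i : Fin n) :
    Nat.card {t : k // (Mt t).rk u i < (Mt 0).rk u i} ≤ d i * u.length := by
  have h1 := k2d_PE_radSeq Mt A B h u (fun _ => ⊤) 0 k2d_PE_top i
  have h2 := k2d_PE_card _ _ h1
  rw [zero_add] at h2
  exact h2

theorem k2d_line_zero (M₀ M₁ : PiMod k n d) (h : SameX M₀ M₁) : M₀.line M₁ h 0 = M₀ := by
  apply PiMod.ext_a
  intro i j
  rw [PiMod.line_a, zero_smul, add_zero]

theorem k2d_line_line (M₀ M₁ : PiMod k n d) (h : SameX M₀ M₁) (t : k) (ht : t ≠ 0) :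
    M₀.line (M₀.line M₁ h t⁻¹) (M₀.line_sameX M₁ h t⁻¹) t = M₁ := by
  apply PiMod.ext_a
  intro i j
  rw [PiMod.line_a, PiMod.line_a, add_sub_cancel_left, smul_smul, mul_inv_cancel₀ ht, one_smul]
  abel

theorem k2d_line_dl (M₀ M₁ : PiMod k n d) (h : SameX M₀ M₁) (b : Bool) (t : k) (i j : Fin n) :
    ((M₀.line M₁ h t).dl b).a i j = (M₀.dl b).a i j + t • ((M₁.dl b).a i j - (M₀.dl b).a i j) := by
  cases b
  · rfl
  · show ((M₀.line M₁ h t).a j i).transpose = (M₀.a j i).transpose + t • ((M₁.a j i).transpose - (M₀.a j i).transpose)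
    rw [PiMod.line_a, Matrix.transpose_add, Matrix.transpose_smul, Matrix.transpose_sub]

/-- **L-K2D-BAD.**  Double counting.   `N = {M | SameX X M}`, `Bad = {M ∈ N | rk (M.dl b) < rk (Ms.dl b)}`.   Count `Pairs = {(t, M) | t ≠ 0, M ∈ N, Ms.line M _ t ∈ Bad}`.
For fixed `t ≠ 0` the map `M ↦ Ms.line M _ t` is a bijection of `N` (inverse: parameter `t⁻¹`; `PiMod.ext_a`, `PiMod.line_a`, `PiMod.line_sameX`), so `|Pairs| = (q - 1) |Bad|`.
For fixed `M`: `t ↦ (Ms.line M _ t).dl b` is affine with `A = (Ms.dl b).a`, `B i j = (M.dl b).a i j - (Ms.dl b).a i j` (cases on `b`; `Matrix.transpose_add/smul/sub`), its value at `t = 0` is `Ms.dl b`; `k2d_line` gives `≤ d_i |u|` bad `t`. -/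
theorem k2d_bad_rank [Fintype k] (X : PiMod k n d) (b : Bool) (u : List (Fin n)) (i : Fin n) (Ms : PiMod k n d)
    (hs : SameX X Ms) :
    Nat.card {M : PiMod k n d // SameX X M ∧ (M.dl b).rk u i < (Ms.dl b).rk u i} * (Fintype.card k - 1)
      ≤ d i * u.length * Nat.card {M : PiMod k n d // SameX X M} := by
  classical
  have hsm : ∀ M : PiMod k n d, SameX X M → SameX Ms M := fun M hM => hs.symm.trans hM
  -- the set of pairs
  let Pairs : Type := {x : kˣ × {M : PiMod k n d // SameX X M} //
    ((Ms.line x.2.1 (hsm _ x.2.2) (x.1 : k)).dl b).rk u i < (Ms.dl b).rk u i}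
  have h1 : Nat.card {M : PiMod k n d // SameX X M ∧ (M.dl b).rk u i < (Ms.dl b).rk u i} * (Fintype.card k - 1)
      ≤ Nat.card Pairs := by
    have hu : Nat.card kˣ = Fintype.card k - 1 := by
      rw [Nat.card_units, Nat.card_eq_fintype_card]
    rw [← hu, ← Nat.card_prod]
    refine Nat.card_le_card_of_injective (fun x => ⟨(x.2, ⟨Ms.line x.1.1 (hsm _ x.1.2.1) ((x.2 : k)⁻¹),
      hs.trans (Ms.line_sameX _ _ _)⟩), ?_⟩) ?_
    · show ((Ms.line (Ms.line x.1.1 (hsm _ x.1.2.1) ((x.2 : k)⁻¹)) _ (x.2 : k)).dl b).rk u i < _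
      rw [k2d_line_line _ _ _ _ x.2.ne_zero]
      exact x.1.2.2
    · rintro ⟨⟨M, hM⟩, t⟩ ⟨⟨M', hM'⟩, t'⟩ hxy
      have e1 : t = t' := congrArg (fun z : Pairs => z.1.1) hxy
      subst e1
      have e2 : Ms.line M (hsm _ hM.1) ((t : k)⁻¹) = Ms.line M' (hsm _ hM'.1) ((t : k)⁻¹) :=
        congrArg (fun z : Pairs => z.1.2.1) hxy
      have e3 : M = M' := by
        rw [← k2d_line_line Ms M (hsm _ hM.1) t t.ne_zero, ← k2d_line_line Ms M' (hsm _ hM'.1) t t.ne_zero]
        congr 1
      subst e3
      rfl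
  have h2 : Nat.card Pairs ≤ d i * u.length * Nat.card {M : PiMod k n d // SameX X M} := by
    refine k2d_card_le_mul (fun x : Pairs => x.1.2) _ ?_
    intro x₀
    obtain ⟨⟨t₀, M⟩, hx₀⟩ := x₀
    have hl := k2d_line (fun t => (Ms.line M.1 (hsm _ M.2) t).dl b) (fun i j => (Ms.dl b).a i j)
      (fun i j => (M.1.dl b).a i j - (Ms.dl b).a i j) (fun t i j => k2d_line_dl Ms M.1 _ b t i j) u i
    simp only [k2d_line_zero] at hl
    refine le_trans ?_ hl
    refine Nat.card_le_card_of_injective (fun x => ⟨(x.1.1.1 : k), ?_⟩) ?_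
    · have hx : x.1.1.2 = M := x.2
      have := x.1.2
      simp only [hx] at this
      exact this
    · intro x x' hxx
      apply Subtype.ext
      apply Subtype.ext
      have e1 : x.1.1.1 = x'.1.1.1 := Units.ext (congrArg (fun z => z.1) hxx)
      have e2 : x.1.1.2 = x'.1.1.2 := x.2.trans x'.2.symm
      exact Prod.ext e1 e2
  exact h1.trans h2

section
variable {V : Fin n → Type} [∀ i, AddCommGroup (V i)] [∀ i, Module k (V i)]

theorem k2d_radSeq_append (M : PiRep k n V)
    (u v : List (Fin n)) (N : ∀ i, Submodule k (V i)) : M.radSeq (u ++ v) N = M.radSeq v (M.radSeq u N) := by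
  induction u generalizing N with
  | nil => rfl
  | cons j u ih => simp only [List.cons_append, PiRep.radSeq, ih]

theorem k2d_radSeq_snoc (M : PiRep k n V) (u : List (Fin n)) (j : Fin n) (N : ∀ i, Submodule k (V i)) :
    M.radSeq (u ++ [j]) N = M.radAt j (M.radSeq u N) := by
  rw [k2d_radSeq_append]
  simp only [PiRep.radSeq]

theorem k2d_str_of_rk_aux (M M' : PiRep k n V) (w : List (Fin n)) : ∀ u : List (Fin n),
    (∀ s ≤ w.length, ∀ i, finrank k (M.radSeq (u ++ w.take s) ⊤ i) = finrank k (M'.radSeq (u ++ w.take s) ⊤ i)) →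
    M.strFrom w (M.radSeq u ⊤) = M'.strFrom w (M'.radSeq u ⊤) := by
  induction w with
  | nil => intro u _; simp only [PiRep.strFrom]
  | cons j w ih =>
    intro u h
    simp only [PiRep.strFrom]
    rw [← k2d_radSeq_snoc, ← k2d_radSeq_snoc]
    have h0 := h 0 (Nat.zero_le _) j
    have h1 := h 1 (by simp) j
    rw [List.take_zero, List.append_nil] at h0
    rw [List.take_succ_cons, List.take_zero] at h1
    rw [h0, h1, ih (u ++ [j])]
    intro s hs i
    have := h (s + 1) (by simpa using hs) i
    rw [List.take_succ_cons] at this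
    rw [List.append_assoc]
    exact this
end

/-- **L-K2D-STR.**  The string is determined by the ranks along the prefixes.
Route: `radSeq (u ++ [j]) N = radAt j (radSeq u N)` (induction on `u`).   Claim, by induction on `w` for all `u`: if `rk (u ++ w.take s) i` agree for all `s ≤ |w|`, `i`, then `M.toRep.strFrom w (M.toRep.radSeq u ⊤) = M'.toRep.strFrom w (M'.toRep.radSeq u ⊤)`;
head: `rk u j - rk (u ++ [j]) j` (`s = 0, 1`); tail: the claim for `u ++ [j]`. -/
theorem k2d_str_of_rk (M M' : PiMod k n d) (w : List (Fin n))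
    (h : ∀ s ≤ w.length, ∀ i, M.rk (w.take s) i = M'.rk (w.take s) i) : M.str w = M'.str w :=
  k2d_str_of_rk_aux M.toRep M'.toRep w [] (fun s hs i => h s hs i)

/-- the constant of the genericity estimate -/
def k2dK (d : Fin n → ℕ) (w : List (Fin n)) : ℕ := (∑ i, d i) * (w.length + 1) ^ 2

/-- **L-K2D-GEN.  (D2)**  all but a fraction `K / (q - 1)` of the modules with a given oriented part have the same string.
Route.  For `(s, i)`, `s ≤ |w|`, choose `Ms s i` with `SameX X (Ms s i)` maximising `(M.dl b).rk (w.take s) i` (`Finite.exists_max` on the non empty finite type `{M // SameX X M}`).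
`Gen M := ∀ s ≤ |w|, ∀ i, (M.dl b).rk (w.take s) i = ((Ms s i).dl b).rk (w.take s) i`.   If some `M_g` with `SameX X M_g ∧ Gen M_g` exists: `c = (M_g.dl b).str w`, otherwise `c = []`.
If `SameX X M` and `(M.dl b).str w ≠ c` then `¬ Gen M` (`k2d_str_of_rk`), so for some `(s, i)`: `rk < rk (Ms s i)` (maximality).   `k2d_card_union` over `Finset.range (|w| + 1) ×ˢ Finset.univ`, `k2d_bad_rank`, `Finset.sum_mul`,
`∑_(s ≤ |w|) ∑_i d_i |w.take s| ≤ (|w| + 1) |w| ∑ d_i ≤ k2dK d w` (`List.length_take_le`). -/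
theorem k2d_generic [Fintype k] (X : PiMod k n d) (b : Bool) (w : List (Fin n)) :
    ∃ c : List ℕ, Nat.card {M : PiMod k n d // SameX X M ∧ (M.dl b).str w ≠ c} * (Fintype.card k - 1)
      ≤ k2dK d w * Nat.card {M : PiMod k n d // SameX X M} := by
  classical
  have hne : Nonempty {M : PiMod k n d // SameX X M} := ⟨⟨X, SameX.refl X⟩⟩
  have hmax : ∀ (s : ℕ) (i : Fin n), ∃ Ms : {M : PiMod k n d // SameX X M}, ∀ M : {M : PiMod k n d // SameX X M},
      (M.1.dl b).rk (w.take s) i ≤ (Ms.1.dl b).rk (w.take s) i :=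
    fun s i => Finite.exists_max (fun M : {M : PiMod k n d // SameX X M} => (M.1.dl b).rk (w.take s) i)
  choose Ms hMs using hmax
  obtain ⟨c, hc⟩ : ∃ c : List ℕ, ∀ M : PiMod k n d, SameX X M →
      (∀ s ≤ w.length, ∀ i, (M.dl b).rk (w.take s) i = ((Ms s i).1.dl b).rk (w.take s) i) → (M.dl b).str w = c := by
    by_cases hg : ∃ Mg : PiMod k n d, SameX X Mg ∧
        ∀ s ≤ w.length, ∀ i, (Mg.dl b).rk (w.take s) i = ((Ms s i).1.dl b).rk (w.take s) i
    · obtain ⟨Mg, h1, h2⟩ := hg
      exact ⟨(Mg.dl b).str w, fun M hM hG => k2d_str_of_rk _ _ w (fun s hs i => by rw [hG s hs i, h2 s hs i])⟩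
    · exact ⟨[], fun M hM hG => absurd ⟨M, hM, hG⟩ hg⟩
  refine ⟨c, ?_⟩
  have hun := k2d_card_union (Finset.range (w.length + 1) ×ˢ (Finset.univ : Finset (Fin n)))
    (fun M : PiMod k n d => SameX X M ∧ (M.dl b).str w ≠ c)
    (fun p M => SameX X M ∧ (M.dl b).rk (w.take p.1) p.2 < ((Ms p.1 p.2).1.dl b).rk (w.take p.1) p.2) (by
      rintro M ⟨hM, hne⟩
      have hG : ¬ ∀ s ≤ w.length, ∀ i, (M.dl b).rk (w.take s) i = ((Ms s i).1.dl b).rk (w.take s) i :=
        fun hG => hne (hc M hM hG)
      push Not at hG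
      obtain ⟨s, hs, i, hsi⟩ := hG
      exact ⟨(s, i), by simp [hs], hM, lt_of_le_of_ne (hMs s i ⟨M, hM⟩) hsi⟩)
  set N := Nat.card {M : PiMod k n d // SameX X M}
  set q := Fintype.card k
  calc _ ≤ (∑ p ∈ Finset.range (w.length + 1) ×ˢ (Finset.univ : Finset (Fin n)),
          Nat.card {M : PiMod k n d // SameX X M ∧
            (M.dl b).rk (w.take p.1) p.2 < ((Ms p.1 p.2).1.dl b).rk (w.take p.1) p.2}) * (q - 1) := by
        gcongr
    _ = ∑ p ∈ Finset.range (w.length + 1) ×ˢ (Finset.univ : Finset (Fin n)),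
          Nat.card {M : PiMod k n d // SameX X M ∧
            (M.dl b).rk (w.take p.1) p.2 < ((Ms p.1 p.2).1.dl b).rk (w.take p.1) p.2} * (q - 1) :=
        Finset.sum_mul _ _ _
    _ ≤ ∑ p ∈ Finset.range (w.length + 1) ×ˢ (Finset.univ : Finset (Fin n)), d p.2 * (w.length + 1) * N := by
        refine Finset.sum_le_sum fun p _ => ?_
        refine le_trans (k2d_bad_rank X b (w.take p.1) p.2 (Ms p.1 p.2).1 (Ms p.1 p.2).2) ?_
        gcongr
        exact le_trans (List.length_take_le' _ _) (Nat.le_succ _)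
    _ = k2dK d w * N := by
        rw [Finset.sum_product]
        simp only [Finset.sum_const, Finset.card_range, smul_eq_mul, ← Finset.sum_mul]
        unfold k2dK
        ring

end Claimed.Agent.R282
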