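/-
Row 282, layer K2, PACKAGE D (counting; architect helper66).   File 2/5: orbits and the lower bound `D1`:  the class `L_X = {M | x-part of M ≅ x-part of X}` has at least `q^D (1 - 1/q)^|d|` elements.
Statements FROZEN; several owners: touch only your theorems; helper lemmas directly above your theorem, prefix `k2d_`.   `q = Fintype.card k`.
-/
import Claimed.Agent.R282.K2.DBasic

set_option autoImplicit false

namespace Claimed.Agent.R282

open Module

variable {k : Type} [Field k] {n : ℕ} {d : Fin n → ℕ}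

theorem k2d_orb_act_inv (g : GG k n d) (M : PiMod k n d) : (M.act g).act g⁻¹ = M := by
  rw [PiMod.act_act, inv_mul_cancel, PiMod.act_one]

theorem k2d_orb_act_inv' (g : GG k n d) (M : PiMod k n d) : (M.act g⁻¹).act g = M := by
  rw [PiMod.act_act, mul_inv_cancel, PiMod.act_one]

/-- **L-K2D-ORB.**  Orbit counting.   `Φ : G × {M | SameX X M ∧ P M} → {M | QIso X M ∧ P M}`, `(g, M) ↦ M.act g` is onto and all its fibres are torsors under `AutX X`.
Route: for `M''` with `QIso X M''` choose `γ M'' : G` with `SameX M'' (X.act (γ M''))`.   Equivalence `G × N_P ≃ AutX X × L_P`:  `(g, M) ↦ (⟨(γ (M.act g))⁻¹ * g, _⟩, M.act g)`, inverse `(u, M'') ↦ (γ M'' * u, M''.act (γ M'' * u)⁻¹)`.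
Facts needed: `PiMod.act_act`, `PiMod.act_one`, `SameX.act`, `SameX.trans/symm`;  `SameX X M → SameX (X.act g) (M.act g)`;
`u = (γ M'')⁻¹ g ∈ AutX X`: with `M'' = M.act g`, `SameX M'' (X.act (γ M''))` and `SameX (X.act g) M''` give `SameX (X.act g) (X.act γ)`; act by `γ⁻¹`.   `Nat.card_congr`, `Nat.card_prod`. -/
theorem k2d_orbit [Fintype k] (P : PiMod k n d → Prop) (hP : ∀ (g : GG k n d) (M : PiMod k n d), P (M.act g) ↔ P M)
    (X : PiMod k n d) :
    Nat.card (GG k n d) * Nat.card {M : PiMod k n d // SameX X M ∧ P M}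
      = Nat.card (AutX X) * Nat.card {M : PiMod k n d // QIso X M ∧ P M} := by
  classical
  let γ : PiMod k n d → GG k n d := fun M => if h : QIso X M then h.choose else 1
  have hγ : ∀ M, QIso X M → SameX M (X.act (γ M)) := by
    intro M h
    simp only [γ, dif_pos h]
    exact h.choose_spec
  rw [← Nat.card_prod, ← Nat.card_prod]
  have hQ : ∀ (g : GG k n d) (M : PiMod k n d), SameX X M → QIso X (M.act g) :=
    fun g M h => ⟨g, (h.act g).symm⟩
  refine Nat.card_congr
    { toFun := fun p => ((⟨(γ (p.2.1.act p.1))⁻¹ * p.1, ?_⟩ : AutX X),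
        (⟨p.2.1.act p.1, hQ p.1 p.2.1 p.2.2.1, (hP _ _).2 p.2.2.2⟩ : {M : PiMod k n d // QIso X M ∧ P M}))
      invFun := fun p => (γ p.2.1 * p.1.1,
        (⟨p.2.1.act (γ p.2.1 * p.1.1)⁻¹, ?_, (hP _ _).2 p.2.2.2⟩ : {M : PiMod k n d // SameX X M ∧ P M}))
      left_inv := ?_
      right_inv := ?_ }
  · -- membership in AutX
    have h1 := hγ _ (hQ p.1 p.2.1 p.2.2.1)
    have h2 : SameX (X.act p.1) (X.act (γ (p.2.1.act p.1))) := (p.2.2.1.act p.1).trans h1
    have h3 := h2.act (γ (p.2.1.act p.1))⁻¹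
    rw [k2d_orb_act_inv, PiMod.act_act] at h3
    exact h3.symm
  · have h1 := hγ _ p.2.2.1
    have h2 : SameX X (X.act p.1.1) := p.1.2
    have h3 : SameX (X.act (γ p.2.1)) (X.act (γ p.2.1 * p.1.1)) := by
      rw [← PiMod.act_act]; exact h2.act _
    have h4 := (h1.trans h3).act (γ p.2.1 * p.1.1)⁻¹
    rw [k2d_orb_act_inv] at h4
    exact h4.symm
  · rintro ⟨g, M, hM⟩
    simp only [mul_inv_cancel_left, k2d_orb_act_inv]
  · rintro ⟨⟨u, hu⟩, M, hM⟩
    simp only [k2d_orb_act_inv', inv_mul_cancel_left]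

/-- **L-K2D-AUT.**  `AutX X` is finite, non empty and injects into `EndX X` (`g ↦ fun i => (g i).val`: `g_j x g_i⁻¹ = x` gives `g_j x = x g_i`). -/
theorem k2d_card_aut [Fintype k] (X : PiMod k n d) :
    0 < Nat.card (AutX X) ∧ Nat.card (AutX X) ≤ Nat.card (EndX X) := by
  have : Finite (AutX X) := by unfold AutX; infer_instance
  have : Nonempty (AutX X) := ⟨⟨1, by rw [PiMod.act_one]; exact SameX.refl X⟩⟩
  refine ⟨Nat.card_pos, ?_⟩
  refine Nat.card_le_card_of_injective
    (fun g : AutX X => (⟨fun i => (g.1 i).val, ?_⟩ : EndX X)) ?_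
  · intro i j hij
    have h := g.2 i j hij
    rw [PiMod.act_a] at h
    have h2 := congrArg (fun Z => Z * (g.1 i).val) h
    simp only [Matrix.mul_assoc, ← Units.val_mul, inv_mul_cancel, Units.val_one, Matrix.mul_one] at h2
    exact h2
  · intro g g' h
    have h1 := congrArg Subtype.val h
    apply Subtype.ext
    funext i
    exact Units.ext (congrFun h1 i)

/-- the linearised relation at `X` -/
def k2dMu (X : PiMod k n d) :
    (∀ i j : Fin n, Matrix (Fin (d j)) (Fin (d i)) k) →ₗ[k] (∀ i : Fin n, Matrix (Fin (d i)) (Fin (d i)) k) where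
  toFun := fun y i => ∑ j, (if j < i then (1 : k) else -1) • (X.a j i * y i j + y j i * X.a i j)
  map_add' := fun y y' => by
    funext i
    simp only [Pi.add_apply, ← Finset.sum_add_distrib, ← smul_add, Matrix.mul_add, Matrix.add_mul]
    refine Finset.sum_congr rfl fun j _ => ?_
    congr 1
    abel
  map_smul' := fun c y => by
    funext i
    simp only [Pi.smul_apply, RingHom.id_apply, Finset.smul_sum, Matrix.mul_smul, Matrix.smul_mul, ← smul_add]
    refine Finset.sum_congr rfl fun j _ => ?_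
    rw [smul_comm]

theorem k2dMu_apply (X : PiMod k n d) (y : ∀ i j : Fin n, Matrix (Fin (d j)) (Fin (d i)) k) (i : Fin n) :
    k2dMu X y i = ∑ j, (if j < i then (1 : k) else -1) • (X.a j i * y i j + y j i * X.a i j) := rfl

theorem k2dMu_eqns_cite : True := by
  have := @k2dMu.eq_1
  trivial

/-- the translate of `X` by an element of the kernel -/
def k2dTranslate (X : PiMod k n d) (y : ∀ i j : Fin n, Matrix (Fin (d j)) (Fin (d i)) k)
    (hy : ∀ i j, ¬ (j < i ∧ adjD n i j) → y i j = 0) (hμ : k2dMu X y = 0) : PiMod k n d where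
  a := fun i j => X.a i j + y i j
  zero := fun i j hij => by rw [X.zero i j hij, hy i j (fun h => hij h.2), add_zero]
  rel := fun i => by
    have key : ∀ j, (X.a j i + y j i) * (X.a i j + y i j)
        = X.a j i * X.a i j + (X.a j i * y i j + y j i * X.a i j) := by
      intro j
      have h0 : y j i * y i j = 0 := by
        by_cases h : j < i
        · rw [hy j i (fun h' => absurd h'.1 (not_lt.2 h.le)), Matrix.zero_mul]
        · rw [hy i j (fun h' => h h'.1), Matrix.mul_zero]
      rw [Matrix.add_mul, Matrix.mul_add, Matrix.mul_add, h0]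
      abel
    simp only [key, smul_add _ (_ * _) (_ + _), Finset.sum_add_distrib]
    have h1 := X.rel i
    have h2 := congrFun hμ i
    rw [k2dMu_apply] at h2
    rw [h1, h2]
    simp

theorem k2dTranslate_a (X : PiMod k n d) (y : ∀ i j : Fin n, Matrix (Fin (d j)) (Fin (d i)) k)
    (hy : ∀ i j, ¬ (j < i ∧ adjD n i j) → y i j = 0) (hμ : k2dMu X y = 0) (i j : Fin n) :
    (k2dTranslate X y hy hμ).a i j = X.a i j + y i j := rfl

theorem k2dTranslate_eqns_cite : True := by
  have := @k2dTranslate.eq_1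
  trivial

/-- orthogonality of the range of `μ` and the endomorphisms -/
theorem k2d_mu_orth (X : PiMod k n d) (y : ∀ i j : Fin n, Matrix (Fin (d j)) (Fin (d i)) k)
    (hy : ∀ i j, ¬ (j < i ∧ adjD n i j) → y i j = 0)
    (ξ : ∀ i : Fin n, Matrix (Fin (d i)) (Fin (d i)) k) (hξ : ξ ∈ EndX X) :
    ∑ i, Matrix.trace (ξ i * k2dMu X y i) = 0 := by
  have hξ' : ∀ i j : Fin n, i < j → ξ j * X.a i j = X.a i j * ξ i := hξ
  have h1 : ∀ i, Matrix.trace (ξ i * k2dMu X y i)
      = ∑ j, ((if j < i then Matrix.trace (ξ i * X.a j i * y i j) else 0)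
          - (if i < j then Matrix.trace (ξ i * y j i * X.a i j) else 0)) := by
    intro i
    rw [k2dMu_apply, Finset.mul_sum, Matrix.trace_sum]
    refine Finset.sum_congr rfl fun j _ => ?_
    rcases lt_trichotomy j i with h | h | h
    · rw [if_pos h, if_pos h, if_neg (not_lt.2 h.le), hy j i (fun h' => absurd h'.1 (not_lt.2 h.le))]
      simp [Matrix.mul_assoc]
    · subst h
      rw [hy j j (fun h' => absurd h'.1 (lt_irrefl _))]
      simp
    · rw [if_neg (not_lt.2 h.le), if_neg (not_lt.2 h.le), if_pos h, hy i j (fun h' => absurd h'.1 (not_lt.2 h.le))]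
      simp [Matrix.mul_assoc]
  simp only [h1, Finset.sum_sub_distrib]
  rw [sub_eq_zero]
  conv_rhs => rw [Finset.sum_comm]
  refine Finset.sum_congr rfl fun i _ => Finset.sum_congr rfl fun j _ => ?_
  by_cases h : j < i
  · rw [if_pos h, if_pos h, hξ' j i h, Matrix.mul_assoc, Matrix.trace_mul_comm, Matrix.mul_assoc]
  · rw [if_neg h, if_neg h]

/-- the trace form -/
def k2dTr (k : Type) [Field k] (n : ℕ) (d : Fin n → ℕ) :
    LinearMap.BilinForm k (∀ i : Fin n, Matrix (Fin (d i)) (Fin (d i)) k) :=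
  LinearMap.mk₂ k (fun ξ ζ => ∑ i, Matrix.trace (ξ i * ζ i))
    (fun a b c => by simp [Matrix.add_mul, Finset.sum_add_distrib])
    (fun c a b => by simp [Finset.mul_sum])
    (fun a b c => by simp [Matrix.mul_add, Finset.sum_add_distrib])
    (fun c a b => by simp [Finset.mul_sum])

theorem k2dTr_apply (ξ ζ : ∀ i : Fin n, Matrix (Fin (d i)) (Fin (d i)) k) :
    k2dTr k n d ξ ζ = ∑ i, Matrix.trace (ξ i * ζ i) := rfl

theorem k2dTr_eqns_cite : True := by
  have := @k2dTr.eq_1
  trivial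

theorem k2d_mu_tr_ker : LinearMap.ker (k2dTr k n d) = ⊥ := by
  classical
  rw [LinearMap.ker_eq_bot']
  intro ξ hξ
  funext i
  ext a b
  have h := congrArg (fun f => f (Pi.single i (Matrix.single b a (1 : k)))) hξ
  simp only [k2dTr_apply, LinearMap.zero_apply] at h
  rw [Finset.sum_eq_single i] at h
  · simpa [Matrix.trace_mul_comm (ξ i), Matrix.trace_single_mul] using h
  · intro j _ hj
    rw [Pi.single_eq_of_ne hj]
    simp
  · intro h'
    exact absurd (Finset.mem_univ i) h'

/-- the space of the non oriented arrows -/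
def k2dYs (k : Type) [Field k] (n : ℕ) (d : Fin n → ℕ) (i j : Fin n) :
    Submodule k (Matrix (Fin (d j)) (Fin (d i)) k) :=
  if j < i ∧ adjD n i j then ⊤ else ⊥

theorem k2dYs_eqns_cite : True := by
  have := @k2dYs.eq_1
  trivial

theorem k2d_mu_finrank_Ys (i j : Fin n) :
    finrank k (k2dYs k n d i j) = if j < i ∧ adjD n i j then d j * d i else 0 := by
  by_cases h : j < i ∧ adjD n i j
  · have e : k2dYs k n d i j = ⊤ := by unfold k2dYs; rw [if_pos h]
    rw [e, if_pos h, finrank_top, Module.finrank_matrix]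
    simp
  · have e : k2dYs k n d i j = ⊥ := by unfold k2dYs; rw [if_neg h]
    rw [e, if_neg h, finrank_bot]

theorem k2d_mu_finrank_Y :
    finrank k (∀ i j : Fin n, k2dYs k n d i j) = edgeSum d := by
  rw [Module.finrank_pi_fintype]
  simp only [Module.finrank_pi_fintype, k2d_mu_finrank_Ys]
  unfold edgeSum
  rw [Finset.sum_comm]
  refine Finset.sum_congr rfl fun i _ => Finset.sum_congr rfl fun j _ => ?_
  have : adjD n j i ↔ adjD n i j := ⟨k2d_adj_symm, k2d_adj_symm⟩
  simp only [this]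

/-- the inclusion of the space of the non oriented arrows -/
def k2dYi (k : Type) [Field k] (n : ℕ) (d : Fin n → ℕ) :
    (∀ i j : Fin n, k2dYs k n d i j) →ₗ[k] (∀ i j : Fin n, Matrix (Fin (d j)) (Fin (d i)) k) where
  toFun := fun y i j => (y i j).1
  map_add' := fun _ _ => rfl
  map_smul' := fun _ _ => rfl

theorem k2dYi_apply (y : ∀ i j : Fin n, k2dYs k n d i j) (i j : Fin n) : k2dYi k n d y i j = (y i j).1 := rfl

theorem k2dYi_eqns_cite : True := by
  have := @k2dYi.eq_1
  trivial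

theorem k2d_mu_Yi_supp (y : ∀ i j : Fin n, k2dYs k n d i j) (i j : Fin n) (h : ¬ (j < i ∧ adjD n i j)) :
    k2dYi k n d y i j = 0 := by
  have e : k2dYs k n d i j = ⊥ := by unfold k2dYs; rw [if_neg h]
  have h1 : ∀ z : Matrix (Fin (d j)) (Fin (d i)) k, z ∈ k2dYs k n d i j → z = 0 := by
    intro z hz
    rw [e, Submodule.mem_bot] at hz
    exact hz
  exact h1 _ (y i j).2

theorem k2d_mu_Yi_inj : Function.Injective (k2dYi k n d) := by
  intro y y' h
  funext i j
  exact Subtype.ext (congrFun (congrFun h i) j)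

/-- **L-K2D-MU.**  `dim N_x ≥ D - ∑ d_i² + dim End x`, in terms of cardinalities.
Route.  `Y` = space of the `y` (families `y i j`, `j < i`, `adjD n i j`; e.g. `∀ e : {p : Fin n × Fin n // p.1 < p.2 ∧ adjD n p.1 p.2}, Matrix (Fin (d e.1.1)) (Fin (d e.1.2)) k`), `|Y| = q ^ edgeSum d`
(`Module.finrank_pi_fintype`, `Module.finrank_matrix`, `Module.card_eq_pow_finrank`, or directly `Fintype.card_pi`, `Fintype.card_fun`).   `Z = ∀ i, Matrix (Fin (d i)) (Fin (d i)) k`, `|Z| = q ^ ∑ d_i²`.
`μ : Y →ₗ Z`, `μ (y)_i = ∑_(j<i) x_ji y_ij - ∑_(j>i) y_ji x_ij` (`x_ji = X.a j i`).   `{M | SameX X M} ≃ ker μ` (the non oriented arrows of `M`; `M.zero`, `M.rel`).   `|ker μ| |range μ| = |Y|` (`LinearMap.quotKerEquivRange`, or rank-nullity).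
`range μ ⊥ EndX X` for the form `B (ζ, ξ) = ∑_i tr (ζ_i ξ_i)`:   `∑_i tr (μ(y)_i ξ_i) = ∑_(j<i) tr (y_ij (ξ_i x_ji - x_ji ξ_j))` (`Matrix.trace_mul_comm`, `Matrix.trace_mul_cycle`; swap the names `i, j` in the second double sum: `Finset.sum_comm`).
`B` is non degenerate (test against `Pi.single i (Matrix.single b a 1)`), so `dim range μ + dim EndX ≤ dim Z` (`LinearMap.BilinForm.finrank_orthogonal`), i.e. `|range μ| |EndX| ≤ |Z|`.
Then `|EndX| |Y| = |EndX| |range μ| |ker μ| ≤ |Z| |ker μ|`. -/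
theorem k2d_card_fibre [Fintype k] (X : PiMod k n d) :
    Nat.card (EndX X) * Fintype.card k ^ edgeSum d
      ≤ Nat.card {M : PiMod k n d // SameX X M} * Fintype.card k ^ (∑ i, d i ^ 2) := by
  set q := Fintype.card k with hq
  have hq1 : 1 ≤ q := Fintype.card_pos
  let μ₀ := k2dMu X ∘ₗ k2dYi k n d
  -- the injection of the kernel
  have hinj : Nat.card (LinearMap.ker μ₀) ≤ Nat.card {M : PiMod k n d // SameX X M} := by
    refine Nat.card_le_card_of_injective
      (fun y : LinearMap.ker μ₀ => (⟨k2dTranslate X (k2dYi k n d y.1) (k2d_mu_Yi_supp y.1)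
        (LinearMap.mem_ker.1 y.2), ?_⟩ :
        {M : PiMod k n d // SameX X M})) ?_
    · intro i j hij
      rw [k2dTranslate_a, k2d_mu_Yi_supp y.1 i j (fun h => absurd h.1 (not_lt.2 hij.le)), add_zero]
    · intro y y' h
      have h1 := congrArg Subtype.val h
      apply Subtype.ext
      apply k2d_mu_Yi_inj
      funext i j
      have h2 := congrArg (fun M : PiMod k n d => M.a i j) h1
      simp only [k2dTranslate_a] at h2
      exact add_left_cancel h2
  -- the range is orthogonal to the endomorphisms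
  have hle : LinearMap.range μ₀ ≤ (k2dTr k n d).orthogonal (EndX X) := by
    rintro _ ⟨y, rfl⟩
    rw [LinearMap.BilinForm.mem_orthogonal_iff]
    intro ξ hξ
    exact k2d_mu_orth X _ (k2d_mu_Yi_supp y) ξ hξ
  have h1 := Submodule.finrank_mono hle
  have h2 := LinearMap.BilinForm.finrank_add_finrank_orthogonal' (B := k2dTr k n d) (EndX X)
  have hker : (k2dTr k n d).ker = ⊥ := k2d_mu_tr_ker
  rw [hker, inf_bot_eq, finrank_bot, add_zero] at h2
  have h3 := LinearMap.finrank_range_add_finrank_ker μ₀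
  rw [k2d_mu_finrank_Y] at h3
  have h4 : finrank k (∀ i : Fin n, Matrix (Fin (d i)) (Fin (d i)) k) = ∑ i, d i ^ 2 := by
    rw [Module.finrank_pi_fintype]
    refine Finset.sum_congr rfl fun i _ => ?_
    rw [Module.finrank_matrix]
    simp [sq]
  rw [h4] at h2
  have h5 : finrank k (EndX X) + edgeSum d ≤ finrank k (LinearMap.ker μ₀) + ∑ i, d i ^ 2 := by omega
  have c1 : Nat.card (EndX X) = q ^ finrank k (EndX X) := by
    rw [Module.natCard_eq_pow_finrank (K := k), Nat.card_eq_fintype_card]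
  have c2 : Nat.card (LinearMap.ker μ₀) = q ^ finrank k (LinearMap.ker μ₀) := by
    rw [Module.natCard_eq_pow_finrank (K := k), Nat.card_eq_fintype_card]
  calc Nat.card (EndX X) * q ^ edgeSum d = q ^ (finrank k (EndX X) + edgeSum d) := by rw [c1, pow_add]
    _ ≤ q ^ (finrank k (LinearMap.ker μ₀) + ∑ i, d i ^ 2) := Nat.pow_le_pow_right hq1 h5
    _ = Nat.card (LinearMap.ker μ₀) * q ^ (∑ i, d i ^ 2) := by rw [c2, pow_add]
    _ ≤ _ := Nat.mul_le_mul_right _ hinj

/-- **L-K2D-GL.**  (`Matrix.card_GL_field : Nat.card (GL (Fin m) k) = ∏ i : Fin m, (q ^ m - q ^ i)`; each factor is `≥ q ^ m - q ^ (m-1) = q ^ (m-1) (q - 1)`, so `q * factor ≥ q ^ m (q - 1)`; `Finset.prod_le_prod'`/`Finset.prod_le_prod`.) -/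
theorem k2d_card_GL [Fintype k] (m : ℕ) :
    Fintype.card k ^ (m ^ 2) * (Fintype.card k - 1) ^ m ≤ Nat.card (GL (Fin m) k) * Fintype.card k ^ m := by
  rw [Matrix.card_GL_field]
  set q := Fintype.card k with hq
  have hq1 : 1 ≤ q := Fintype.card_pos
  have h1 : ∀ i : Fin m, q ^ m * (q - 1) ≤ (q ^ m - q ^ (i : ℕ)) * q := by
    intro i
    have hi : (i : ℕ) + 1 ≤ m := i.2
    have h2 : q ^ ((i : ℕ) + 1) ≤ q ^ m := Nat.pow_le_pow_right hq1 hi
    rw [Nat.sub_mul, Nat.mul_sub, mul_one, ← pow_succ, ← pow_succ]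
    omega
  calc q ^ (m ^ 2) * (q - 1) ^ m = ∏ _i : Fin m, q ^ m * (q - 1) := by
        rw [Finset.prod_const, Finset.card_univ, Fintype.card_fin, mul_pow, ← pow_mul, sq]
    _ ≤ ∏ i : Fin m, (q ^ m - q ^ (i : ℕ)) * q := Finset.prod_le_prod' fun i _ => h1 i
    _ = _ := by
        rw [Finset.prod_mul_distrib, Finset.prod_const, Finset.card_univ, Fintype.card_fin]

/-- **L-K2D-GL.**  (`Nat.card_pi`, `k2d_card_GL`, `Finset.prod_le_prod'`, `Finset.prod_pow_eq_pow_sum`, `Finset.prod_mul_distrib`.) -/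
theorem k2d_card_GG [Fintype k] :
    Fintype.card k ^ (∑ i, d i ^ 2) * (Fintype.card k - 1) ^ (∑ i, d i)
      ≤ Nat.card (GG k n d) * Fintype.card k ^ (∑ i, d i) := by
  rw [Nat.card_pi, ← Finset.prod_pow_eq_pow_sum, ← Finset.prod_pow_eq_pow_sum, ← Finset.prod_pow_eq_pow_sum,
    ← Finset.prod_mul_distrib, ← Finset.prod_mul_distrib]
  exact Finset.prod_le_prod' fun i _ => k2d_card_GL (d i)

/-- **D1.**  the lower bound for a class. -/
theorem k2d_class_lower [Fintype k] (X : PiMod k n d) :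
    (Fintype.card k - 1) ^ (∑ i, d i) * Fintype.card k ^ edgeSum d
      ≤ Fintype.card k ^ (∑ i, d i) * Nat.card {M : PiMod k n d // QIso X M} := by
  set q := Fintype.card k with hq
  have hq0 : 0 < q := Fintype.card_pos
  have horb := k2d_orbit (fun _ : PiMod k n d => True) (fun _ _ => Iff.rfl) X
  have eN : Nat.card {M : PiMod k n d // SameX X M ∧ True} = Nat.card {M : PiMod k n d // SameX X M} :=
    Nat.card_congr (Equiv.subtypeEquivRight fun M => by simp)
  have eL : Nat.card {M : PiMod k n d // QIso X M ∧ True} = Nat.card {M : PiMod k n d // QIso X M} :=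
    Nat.card_congr (Equiv.subtypeEquivRight fun M => by simp)
  rw [eN, eL] at horb
  set N := Nat.card {M : PiMod k n d // SameX X M} with hN
  set L := Nat.card {M : PiMod k n d // QIso X M} with hL
  have hNpos : 0 < N := by
    haveI : Nonempty {M : PiMod k n d // SameX X M} := ⟨⟨X, SameX.refl X⟩⟩
    exact Nat.card_pos
  obtain ⟨-, haut⟩ := k2d_card_aut X
  have hfib := k2d_card_fibre X
  have hGG := k2d_card_GG (k := k) (n := n) (d := d)
  rw [← hq] at hfib hGG
  set G := Nat.card (GG k n d)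
  set A := Nat.card (AutX X)
  set E := Nat.card (EndX X)
  set D := edgeSum d
  set δ := ∑ i, d i
  set L2 := ∑ i, d i ^ 2
  -- `G q^D ≤ q^L2 L`
  have h1 : G * q ^ D ≤ q ^ L2 * L := by
    have : N * (G * q ^ D) ≤ N * (q ^ L2 * L) := by
      calc N * (G * q ^ D) = (G * N) * q ^ D := by ring
        _ = (A * L) * q ^ D := by rw [horb]
        _ ≤ (E * L) * q ^ D := by gcongr
        _ = (E * q ^ D) * L := by ring
        _ ≤ (N * q ^ L2) * L := by gcongr
        _ = N * (q ^ L2 * L) := by ring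
    exact Nat.le_of_mul_le_mul_left this hNpos
  have h2 : q ^ L2 * ((q - 1) ^ δ * q ^ D) ≤ q ^ L2 * (q ^ δ * L) := by
    calc q ^ L2 * ((q - 1) ^ δ * q ^ D) = (q ^ L2 * (q - 1) ^ δ) * q ^ D := by ring
      _ ≤ (G * q ^ δ) * q ^ D := by gcongr
      _ = (G * q ^ D) * q ^ δ := by ring
      _ ≤ (q ^ L2 * L) * q ^ δ := by gcongr
      _ = q ^ L2 * (q ^ δ * L) := by ring
  exact Nat.le_of_mul_le_mul_left h2 (by positivity)

end Claimed.Agent.R282
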