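/-
Row 282, layer K2, PACKAGE D (counting; architect helper66).   File 4/5: the stratum bound `D3`:  at most `q^D (1 - 1/q)^(-|e|)` modules have a given string (along a sequence which exhausts them).
Coordinate free (`PiRep` on arbitrary families `V`), induction on the sequence, QUANTIFIED OVER ALL FAMILIES `V`.   One step `j :: w`, string `p :: c'`:  `W = ∑ images of the arrows into j`, of dimension `a = e_j - p`;
`M' = M` restricted to `N_W = (V_i (i ≠ j), W)`;  `#{W} ≤ q^(pa) r^p`;  the fibre of `M ↦ M'` injects into `Hom (V_j / W, Ker in_j)`, of size `q^(p (S - a))`, `S = ∑_(i ~ j) e_i`;  `D (e) = D (e') + p S`.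
Statements FROZEN; several owners: touch only your theorems; helper lemmas directly above your theorem, prefix `k2d_`.   `q = Fintype.card k`.
-/
import Claimed.Agent.R282.K2.DOrb

set_option autoImplicit false

namespace Claimed.Agent.R282

open Module

variable {k : Type} [Field k] {n : ℕ}

section Rep

variable {V : Fin n → Type} [∀ i, AddCommGroup (V i)] [∀ i, Module k (V i)]

/-- **L-K2D-FIN.**  (`Module.finite_of_finite k` makes every `V i` finite; `PiRep.ext_a`; `DFunLike.coe_injective`; `Finite.of_injective` into `∀ i j, V i → V j`.) -/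
instance k2d_finite_piRep [Finite k] [∀ i, FiniteDimensional k (V i)] : Finite (PiRep k n V) := by
  have : ∀ i, Finite (V i) := fun i => Module.finite_of_finite k
  exact Finite.of_injective (fun M : PiRep k n V => fun i j => (M.a i j : V i → V j)) (fun M M' h =>
    PiRep.ext_a fun i j => DFunLike.coe_injective (congrFun (congrFun h i) j))

/-- **L-K2D-FIN.**  (`SetLike.coe_injective`, `Finite (Set U)`.) -/
instance k2d_finite_submodule [Finite k] (U : Type) [AddCommGroup U] [Module k U] [FiniteDimensional k U] :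
    Finite (Submodule k U) := by
  have : Finite U := Module.finite_of_finite k
  exact Finite.of_injective (fun W : Submodule k U => (W : Set U)) SetLike.coe_injective

/-- **L-K2D-FIN.**  `rad_j ⊤` is a submodule.   (target `≠ j`: the component is `⊤`; target `j`: `le_iSup_of_le`, `Submodule.map_mono le_top`.) -/
theorem k2d_isSub_radAt_top (M : PiRep k n V) (j : Fin n) : M.IsSub (M.radAt j ⊤) := by
  intro i i'
  unfold PiRep.radAt
  rcases eq_or_ne i' j with rfl | h
  · rw [Function.update_self]
    exact le_iSup_of_le i (Submodule.map_mono le_top)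
  · rw [Function.update_of_ne h]
    exact le_top

/-- the map `in_j : ⊕_(i ~ j) V_i → V_j` -/
noncomputable def k2dIn (M₀ : PiRep k n V) (j : Fin n) : (∀ i : {i : Fin n // adjD n i j}, V i.1) →ₗ[k] V j :=
  ∑ i : {i : Fin n // adjD n i j}, (if i.1 < j then (1 : k) else -1) • (M₀.a i.1 j ∘ₗ LinearMap.proj i)

theorem k2d_le_range_in (M₀ : PiRep k n V) (j : Fin n) : M₀.radAt j ⊤ j ≤ LinearMap.range (k2dIn M₀ j) := by
  classical
  unfold PiRep.radAt
  rw [Function.update_self]
  refine iSup_le fun i => ?_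
  by_cases hij : adjD n i j
  · rintro _ ⟨v, -, rfl⟩
    refine ⟨Pi.single (⟨i, hij⟩ : {i : Fin n // adjD n i j}) ((if i < j then (1 : k) else -1) • v), ?_⟩
    unfold k2dIn
    simp only [LinearMap.sum_apply, LinearMap.smul_apply, LinearMap.comp_apply, LinearMap.proj_apply]
    rw [Finset.sum_eq_single (⟨i, hij⟩ : {i : Fin n // adjD n i j})]
    · simp only [Pi.single_eq_same, map_smul, smul_smul]
      split_ifs <;> simp
    · intro b _ hb
      rw [Pi.single_eq_of_ne hb]; simp
    · intro h; exact absurd (Finset.mem_univ _) h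
  · rw [M₀.zero i j hij]
    simp

theorem k2d_finrank_T [∀ i, FiniteDimensional k (V i)] (j : Fin n) :
    finrank k (∀ i : {i : Fin n // adjD n i j}, V i.1) = nbrSum (fun i => finrank k (V i)) j := by
  classical
  rw [Module.finrank_pi_fintype]
  unfold nbrSum
  rw [← Finset.sum_filter]
  exact (Finset.sum_subtype (Finset.univ.filter fun i => adjD n i j) (by simp) (fun i => finrank k (V i))).symm

/-- the difference of the outgoing arrows -/
noncomputable def k2dDelta (M₀ M : PiRep k n V) (j : Fin n) : V j →ₗ[k] (∀ i : {i : Fin n // adjD n i j}, V i.1) :=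
  LinearMap.pi fun i => M.a j i.1 - M₀.a j i.1

theorem k2d_in_delta (M₀ M : PiRep k n V) (j : Fin n) (h : ∀ i, i ≠ j → M.a i j = M₀.a i j) (v : V j) :
    k2dIn M₀ j (k2dDelta M₀ M j v) = 0 := by
  classical
  have key : ∀ R : PiRep k n V, (∀ i, i ≠ j → R.a i j = M₀.a i j) →
      ∑ i : {i : Fin n // adjD n i j}, (if i.1 < j then (1 : k) else -1) • M₀.a i.1 j (R.a j i.1 v) = 0 := by
    intro R hR
    have h1 := congrArg (fun f : V j →ₗ[k] V j => f v) (R.rel j)
    simp only [LinearMap.sum_apply, LinearMap.smul_apply, LinearMap.comp_apply, LinearMap.zero_apply] at h1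
    rw [← h1]
    have h2 : ∀ i : Fin n, (if i < j then (1 : k) else -1) • R.a i j (R.a j i v)
        = if adjD n i j then (if i < j then (1 : k) else -1) • M₀.a i j (R.a j i v) else 0 := by
      intro i
      by_cases hij : adjD n i j
      · rw [if_pos hij, hR i (fun e => k2d_not_adj_self n j (e ▸ hij))]
      · rw [if_neg hij, R.zero i j hij]; simp
    simp only [h2]
    rw [← Finset.sum_filter]
    exact (Finset.sum_subtype (Finset.univ.filter fun i => adjD n i j) (by simp)
      (fun i => (if i < j then (1 : k) else -1) • M₀.a i j (R.a j i v))).symm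
  have e1 := key M h
  have e0 := key M₀ (fun _ _ => rfl)
  unfold k2dIn k2dDelta
  simp only [LinearMap.sum_apply, LinearMap.smul_apply, LinearMap.comp_apply, LinearMap.proj_apply,
    LinearMap.pi_apply, LinearMap.sub_apply, map_sub, smul_sub, Finset.sum_sub_distrib, e1, e0, sub_zero]

/-- **L-K2D-FIB.**  The fibre of the restriction map.
`W = M₀.radAt j ⊤ j = ⨆ i, range (M₀.a i j)`, `a = finrank W`, `T = ∀ i : {i // adjD n i j}, V i` (`finrank T = nbrSum e j`: `Module.finrank_pi_fintype`, `Finset.sum_subtype`/`Finset.sum_ite`),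
`in : T →ₗ V j`, `in (v) = ∑ i, (if i < j then 1 else -1) • M₀.a i j (v i)`, `range in = W` (arrows from non adjacent vertices vanish: `M₀.zero`; the signs are units), so `a ≤ nbrSum e j` and `finrank (ker in) = nbrSum e j - a`.
If `M` agrees with `M₀` on `M₀.radAt j ⊤` then `M.a i i' = M₀.a i i'` for `i ≠ j` (the component is `⊤`), and `δ_i' = M.a j i' - M₀.a j i'` vanishes on `W`, vanishes for `i'` not adjacent to `j`, and `∑_i' ± M₀.a i' j ∘ δ_i' = 0` (difference of `M.rel j` and `M₀.rel j`).
So `M ↦ (V j ⧸ W →ₗ ker in)` (`Submodule.liftQ`, `LinearMap.codRestrict`, `LinearMap.pi`), or `M ↦ (C →ₗ ker in)` for a complement `C` of `W`, is injective; `Module.finrank_linearMap`, `Module.card_eq_pow_finrank`, `Submodule.finrank_quotient…`. -/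
theorem k2d_fibre [Fintype k] [∀ i, FiniteDimensional k (V i)] (M₀ : PiRep k n V) (j : Fin n) :
    finrank k (M₀.radAt j ⊤ j) ≤ nbrSum (fun i => finrank k (V i)) j ∧
    Nat.card {M : PiRep k n V // ∀ (i i' : Fin n) (v : V i), v ∈ M₀.radAt j ⊤ i → M.a i i' v = M₀.a i i' v}
      ≤ Fintype.card k ^ ((finrank k (V j) - finrank k (M₀.radAt j ⊤ j))
          * (nbrSum (fun i => finrank k (V i)) j - finrank k (M₀.radAt j ⊤ j))) := by
  classical
  set W := M₀.radAt j ⊤ j with hW
  set S := nbrSum (fun i => finrank k (V i)) j with hS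
  have hle : finrank k W ≤ finrank k (LinearMap.range (k2dIn M₀ j)) :=
    Submodule.finrank_mono (k2d_le_range_in M₀ j)
  have hrn := LinearMap.finrank_range_add_finrank_ker (k2dIn M₀ j)
  rw [k2d_finrank_T j, ← hS] at hrn
  refine ⟨by omega, ?_⟩
  obtain ⟨C, hC⟩ := Submodule.exists_isCompl W
  have hCf := Submodule.finrank_add_eq_of_isCompl hC
  -- arrows not starting at `j`
  have hne : ∀ M : {M : PiRep k n V // ∀ (i i' : Fin n) (v : V i), v ∈ M₀.radAt j ⊤ i → M.a i i' v = M₀.a i i' v},
      ∀ i i', i ≠ j → M.1.a i i' = M₀.a i i' := by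
    intro M i i' hij
    ext v
    refine M.2 i i' v ?_
    unfold PiRep.radAt
    rw [Function.update_of_ne hij]
    exact Submodule.mem_top
  have hcard : Nat.card (↥C →ₗ[k] ↥(LinearMap.ker (k2dIn M₀ j)))
      = Fintype.card k ^ (finrank k C * finrank k (LinearMap.ker (k2dIn M₀ j))) := by
    rw [Module.natCard_eq_pow_finrank (K := k), Module.finrank_linearMap, Nat.card_eq_fintype_card]
  have hfinH : Finite (↥C →ₗ[k] ↥(LinearMap.ker (k2dIn M₀ j))) := Module.finite_of_finite k
  calc _ ≤ Nat.card (↥C →ₗ[k] ↥(LinearMap.ker (k2dIn M₀ j))) := by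
        refine Nat.card_le_card_of_injective (fun M => LinearMap.codRestrict _ (k2dDelta M₀ M.1 j ∘ₗ C.subtype)
          (fun c => LinearMap.mem_ker.2 (k2d_in_delta M₀ M.1 j (fun i hi => hne M i j hi) _))) ?_
        intro M M' h
        apply Subtype.ext
        apply PiRep.ext_a
        intro i i'
        by_cases hij : i = j
        · subst hij
          by_cases hadj : adjD n i' i
          · -- equal on `W` and on `C`
            have hCeq : ∀ c ∈ C, M.1.a i i' c = M'.1.a i i' c := by
              intro c hc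
              have h1 := congrArg (fun f : ↥C →ₗ[k] ↥(LinearMap.ker (k2dIn M₀ i)) =>
                ((f ⟨c, hc⟩ : ↥(LinearMap.ker (k2dIn M₀ i))) : ∀ l : {l : Fin n // adjD n l i}, V l.1) ⟨i', hadj⟩) h
              simp only [LinearMap.codRestrict_apply, LinearMap.comp_apply, Submodule.subtype_apply, k2dDelta,
                LinearMap.pi_apply, LinearMap.sub_apply] at h1
              exact sub_left_injective h1
            have hWeq : ∀ x ∈ W, M.1.a i i' x = M'.1.a i i' x := by
              intro x hx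
              rw [M.2 i i' x hx, M'.2 i i' x hx]
            ext v
            have hv : v ∈ W ⊔ C := by rw [hC.sup_eq_top]; exact Submodule.mem_top
            obtain ⟨x, hx, c, hc, rfl⟩ := Submodule.mem_sup.1 hv
            rw [map_add, map_add, hWeq x hx, hCeq c hc]
          · have hadj' : ¬ adjD n i i' := fun h => hadj (k2d_adj_symm h)
            rw [M.1.zero i i' hadj', M'.1.zero i i' hadj']
        · rw [hne M i i' hij, hne M' i i' hij]
    _ = _ := hcard
    _ ≤ _ := by
        apply Nat.pow_le_pow_right Fintype.card_pos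
        apply Nat.mul_le_mul
        · omega
        · omega

/-- the family `(V_i (i ≠ j), W)` -/
def k2dNW (j : Fin n) (W : Submodule k (V j)) : ∀ i, Submodule k (V i) := Function.update ⊤ j W

theorem k2d_radAt_top_eq (M : PiRep k n V) (j : Fin n) (W : Submodule k (V j)) (h : M.radAt j ⊤ j = W) :
    M.radAt j ⊤ = k2dNW j W := by
  unfold k2dNW
  rw [← h]
  unfold PiRep.radAt
  simp

/-- **L-K2D-RES.**  One subspace `W`: restriction to `N_W`.
Route.  `S_W` = LHS type, `S'_W` = RHS type.   For `M ∈ S_W`: `M.radAt j ⊤ = k2dNW j W` (`Function.update` with the same value), so `M.IsSub (k2dNW j W)` (`k2d_isSub_radAt_top`); `M' = M.restrict (k2dNW j W) _`.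
`k2d_push_strFrom`, `k2d_push_radSeq` with `ι i = (k2dNW j W i).subtype` (`hι`: `ext`, `LinearMap.restrict_apply`), `k2dPush ι ⊤ = k2dNW j W` (`Submodule.map_subtype_top`): `M'.strFrom w ⊤ = c'`;  `k2dPush ι (M'.radSeq w ⊤) = ⊥` gives `M'.radSeq w ⊤ = ⊥`
(`Submodule.map_eq_bot_iff` / injectivity of `subtype`).   So `f : S_W → S'_W`.   `f M = f M₀` implies that `M`, `M₀` agree on `k2dNW j W = M₀.radAt j ⊤`: the fibre injects into the set of `k2d_fibre M₀ j` (`Nat.card_le_card_of_injective`).   `k2d_card_le_mul`. -/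
theorem k2d_restrict_count [Fintype k] [∀ i, FiniteDimensional k (V i)] (j : Fin n) (w : List (Fin n))
    (c' : List ℕ) (W : Submodule k (V j)) :
    Nat.card {M : PiRep k n V // M.radAt j ⊤ j = W ∧ M.strFrom w (M.radAt j ⊤) = c' ∧ M.radSeq w (M.radAt j ⊤) = ⊥}
      ≤ Fintype.card k ^ ((finrank k (V j) - finrank k W) * (nbrSum (fun i => finrank k (V i)) j - finrank k W))
        * Nat.card {M' : PiRep k n (fun i => ↥(k2dNW j W i)) // M'.strFrom w ⊤ = c' ∧ M'.radSeq w ⊤ = ⊥} := by
  classical
  have hsub : ∀ M : PiRep k n V, M.radAt j ⊤ j = W → M.IsSub (k2dNW j W) := fun M h => by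
    rw [← k2d_radAt_top_eq M j W h]; exact k2d_isSub_radAt_top M j
  set ι : ∀ i, ↥(k2dNW j W i) →ₗ[k] V i := fun i => (k2dNW j W i).subtype with hι
  have hinj : ∀ i, Function.Injective (ι i) := fun i => Subtype.val_injective
  have hint : ∀ (M : PiRep k n V) (h : M.IsSub (k2dNW j W)) (i i' : Fin n),
      ι i' ∘ₗ (M.restrict (k2dNW j W) h).a i i' = M.a i i' ∘ₗ ι i := by
    intro M h i i'
    ext v
    rfl
  have htop : k2dPush ι (⊤ : ∀ i, Submodule k ↥(k2dNW j W i)) = k2dNW j W := by
    funext i
    simp only [k2dPush, Pi.top_apply, hι, Submodule.map_subtype_top]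
  -- the map
  have hmem : ∀ M : {M : PiRep k n V // M.radAt j ⊤ j = W ∧ M.strFrom w (M.radAt j ⊤) = c' ∧
      M.radSeq w (M.radAt j ⊤) = ⊥},
      (M.1.restrict (k2dNW j W) (hsub M.1 M.2.1)).strFrom w ⊤ = c' ∧
      (M.1.restrict (k2dNW j W) (hsub M.1 M.2.1)).radSeq w ⊤ = ⊥ := by
    intro M
    obtain ⟨M, h1, h2, h3⟩ := M
    rw [k2d_radAt_top_eq M j W h1] at h2 h3
    constructor
    · have := k2d_push_strFrom (M.restrict (k2dNW j W) (hsub M h1)) M ι (hint M _) hinj w ⊤
      rw [htop] at this
      rw [← this]; exact h2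
    · have := k2d_push_radSeq (M.restrict (k2dNW j W) (hsub M h1)) M ι (hint M _) w ⊤
      rw [htop, h3] at this
      funext i
      have hi := congrFun this i
      simp only [k2dPush, Pi.bot_apply] at hi
      rw [Pi.bot_apply, eq_bot_iff]
      intro x hx
      have hx' : ι i x ∈ (⊥ : Submodule k (V i)) := hi ▸ Submodule.mem_map_of_mem hx
      rw [Submodule.mem_bot] at hx' ⊢
      exact hinj i (by rw [hx', map_zero])
  refine k2d_card_le_mul (fun M => (⟨M.1.restrict (k2dNW j W) (hsub M.1 M.2.1), hmem M⟩ :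
    {M' : PiRep k n (fun i => ↥(k2dNW j W i)) // M'.strFrom w ⊤ = c' ∧ M'.radSeq w ⊤ = ⊥})) _ ?_
  intro M₀
  have hfib := (k2d_fibre M₀.1 j).2
  rw [M₀.2.1] at hfib
  refine le_trans ?_ hfib
  refine Nat.card_le_card_of_injective (fun M => ⟨M.1.1, ?_⟩) ?_
  · intro i i' v hv
    rw [k2d_radAt_top_eq M₀.1 j W M₀.2.1] at hv
    have h := congrArg (fun x => x.1) M.2
    have h2 := congrArg (fun R : PiRep k n (fun i => ↥(k2dNW j W i)) => ((R.a i i' ⟨v, hv⟩ : ↥(k2dNW j W i')) : V i')) h
    exact h2
  · intro M M' h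
    apply Subtype.ext
    apply Subtype.ext
    exact congrArg (fun x => x.1) h

/-- **L-K2D-RES.** -/
theorem k2d_finrank_NW (j : Fin n) (W : Submodule k (V j)) (i : Fin n) :
    finrank k (k2dNW j W i) = Function.update (fun i => finrank k (V i)) j (finrank k W) i := by
  unfold k2dNW
  rcases eq_or_ne i j with rfl | h
  · rw [Function.update_self, Function.update_self]
  · rw [Function.update_of_ne h, Function.update_of_ne h]
    exact finrank_top k (V i)

end Rep

/-- **L-K2D-GR0.**  Grassmannian, first form.   For every `W` of dimension `a` choose a linear equivalence `φ_W : (U ⧸ W) ≃ₗ (Fin p → k)` (`finrank (U ⧸ W) = p`: `Submodule.finrank_quotient_add_finrank`; `LinearEquiv.ofFinrankEq`).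
`(W, g) ↦ (Matrix.toLin' g.val) ∘ₗ φ_W ∘ₗ W.mkQ : U →ₗ (Fin p → k)` is injective: the kernel of the image is `W`; then `g` is determined because `φ_W ∘ mkQ` is onto.   `|U →ₗ (Fin p → k)| = q ^ (p (a + p))`
(`Module.finrank_linearMap`, `Module.card_eq_pow_finrank`).   `Nat.card_prod`, `Nat.card_le_card_of_injective`. -/
theorem k2d_grass0 [Fintype k] (U : Type) [AddCommGroup U] [Module k U] [FiniteDimensional k U] (p a : ℕ)
    (h : a + p = finrank k U) :
    Nat.card {W : Submodule k U // finrank k W = a} * Nat.card (GL (Fin p) k) ≤ Fintype.card k ^ (p * (a + p)) := by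
  classical
  have hex : ∀ W : {W : Submodule k U // finrank k W = a}, ∃ π : U →ₗ[k] (Fin p → k),
      LinearMap.ker π = W.1 ∧ Function.Surjective π := by
    intro W
    have h1 := Submodule.finrank_quotient_add_finrank W.1
    have h2 : finrank k (U ⧸ W.1) = finrank k (Fin p → k) := by
      rw [Module.finrank_fin_fun]
      have := W.2
      omega
    refine ⟨(LinearEquiv.ofFinrankEq _ _ h2).toLinearMap ∘ₗ W.1.mkQ, ?_, ?_⟩
    · rw [LinearMap.ker_comp, LinearEquiv.ker, Submodule.comap_bot, Submodule.ker_mkQ]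
    · exact (LinearEquiv.surjective _).comp (Submodule.mkQ_surjective _)
  choose π hker hsurj using hex
  have hfinH : Finite (U →ₗ[k] (Fin p → k)) := Module.finite_of_finite k
  have hcard : Nat.card (U →ₗ[k] (Fin p → k)) = Fintype.card k ^ (p * (a + p)) := by
    rw [Module.natCard_eq_pow_finrank (K := k), Module.finrank_linearMap, Nat.card_eq_fintype_card,
      Module.finrank_fin_fun, ← h, mul_comm]
  rw [← Nat.card_prod, ← hcard]
  have hginj : ∀ g : GL (Fin p) k, Function.Injective (Matrix.toLin' g.val) := by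
    intro g x y hxy
    have := congrArg (Matrix.toLin' g⁻¹.val) hxy
    simpa [← Matrix.toLin'_mul_apply, ← Units.val_mul] using this
  refine Nat.card_le_card_of_injective (fun x => Matrix.toLin' x.2.val ∘ₗ π x.1) ?_
  rintro ⟨W, g⟩ ⟨W', g'⟩ hxy
  simp only at hxy
  have hW : W = W' := by
    apply Subtype.ext
    rw [← hker W, ← hker W']
    have e1 : LinearMap.ker (Matrix.toLin' g.val ∘ₗ π W) = LinearMap.ker (π W) := by
      rw [LinearMap.ker_comp, LinearMap.ker_eq_bot.2 (hginj g), Submodule.comap_bot]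
    have e2 : LinearMap.ker (Matrix.toLin' g'.val ∘ₗ π W') = LinearMap.ker (π W') := by
      rw [LinearMap.ker_comp, LinearMap.ker_eq_bot.2 (hginj g'), Submodule.comap_bot]
    rw [← e1, ← e2, hxy]
  subst hW
  have hg : Matrix.toLin' g.val = Matrix.toLin' g'.val := by
    apply LinearMap.ext
    intro c
    obtain ⟨u, hu⟩ := hsurj W c
    have := congrArg (fun f : U →ₗ[k] (Fin p → k) => f u) hxy
    simp only [LinearMap.comp_apply, hu] at this
    exact this
  have : g = g' := Units.ext (Matrix.toLin'.injective hg)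
  rw [this]

/-- **L-K2D-GR.**  Grassmannian.   (`k2d_grass0`, `k2d_card_GL p`:  `#W q^(p²) (q-1)^p ≤ #W |GL_p| q^p ≤ q^(p(a+p)+p) = q^(p²) q^(pa+p)`; cancel `q^(p²)`.) -/
theorem k2d_grass [Fintype k] (U : Type) [AddCommGroup U] [Module k U] [FiniteDimensional k U] (p a : ℕ)
    (h : a + p = finrank k U) :
    Nat.card {W : Submodule k U // finrank k W = a} * (Fintype.card k - 1) ^ p ≤ Fintype.card k ^ (p * a + p) := by
  have h0 := k2d_grass0 (k := k) U p a h
  have h1 := k2d_card_GL (k := k) p
  set q := Fintype.card k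
  set G := Nat.card {W : Submodule k U // finrank k W = a}
  have hq0 : 0 < q := Fintype.card_pos
  have : q ^ (p ^ 2) * (G * (q - 1) ^ p) ≤ q ^ (p ^ 2) * q ^ (p * a + p) := by
    calc q ^ (p ^ 2) * (G * (q - 1) ^ p) = G * (q ^ (p ^ 2) * (q - 1) ^ p) := by ring
      _ ≤ G * (Nat.card (GL (Fin p) k) * q ^ p) := by gcongr
      _ = (G * Nat.card (GL (Fin p) k)) * q ^ p := by ring
      _ ≤ q ^ (p * (a + p)) * q ^ p := by gcongr
      _ = q ^ (p ^ 2) * q ^ (p * a + p) := by
          rw [← pow_add, ← pow_add]; congr 1; ring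
  exact Nat.le_of_mul_le_mul_left this (by positivity)

/-- **L-K2D-ARI.**  `D (e) = D (e - p δ_j) + p ∑_(i ~ j) e_i`.   (Write `e = e' + p δ_j`; in `∑_i ∑_i' [i < i' ∧ i ~ i'] e_i e_i'` split according to `i = j`, `i' = j` (never both: `k2d_not_adj_self`); `k2d_adj_symm`;
`Finset.sum_comm`; or: induction on `p`.) -/
theorem k2d_edgeSum_update (e : Fin n → ℕ) (j : Fin n) (a p : ℕ) (h : a + p = e j) :
    edgeSum e = edgeSum (Function.update e j a) + p * nbrSum e j := by
  set e' := Function.update e j a with he'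
  have hj : e' j = a := by rw [he', Function.update_self]
  have hne : ∀ i, i ≠ j → e' i = e i := fun i hi => by rw [he', Function.update_of_ne hi]
  have hpt : ∀ i i', (if i < i' ∧ adjD n i i' then e i * e i' else 0)
      = (if i < i' ∧ adjD n i i' then e' i * e' i' else 0)
        + p * ((if i = j then (if j < i' ∧ adjD n i' j then e i' else 0) else 0)
          + (if i' = j then (if i < j ∧ adjD n i j then e i else 0) else 0)) := by
    intro i i'
    by_cases hi : i = j
    · subst hi
      by_cases hc : i < i' ∧ adjD n i i'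
      · have hne' : i' ≠ i := ne_of_gt hc.1
        have hc' : i < i' ∧ adjD n i' i := ⟨hc.1, k2d_adj_symm hc.2⟩
        rw [if_pos hc, if_pos hc, if_pos rfl, if_pos hc', if_neg hne', hj, hne i' hne', ← h]
        ring
      · have hc' : ¬ (i < i' ∧ adjD n i' i) := fun hh => hc ⟨hh.1, k2d_adj_symm hh.2⟩
        rw [if_neg hc, if_neg hc, if_pos rfl, if_neg hc']
        by_cases hi' : i' = i
        · subst hi'
          simp
        · rw [if_neg hi']; simp
    · rw [if_neg hi]
      by_cases hi' : i' = j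
      · subst hi'
        rw [if_pos rfl]
        by_cases hc : i < i' ∧ adjD n i i'
        · rw [if_pos hc, if_pos hc, if_pos hc, hj, hne i hi, ← h]
          ring
        · rw [if_neg hc, if_neg hc, if_neg hc]; simp
      · rw [if_neg hi', hne i hi, hne i' hi']
        simp
  unfold edgeSum nbrSum
  simp only [hpt, Finset.sum_add_distrib, ← Finset.mul_sum]
  congr 2
  have e1 : ∑ i : Fin n, ∑ i' : Fin n, (if i = j then (if j < i' ∧ adjD n i' j then e i' else 0) else 0)
      = ∑ i' : Fin n, (if j < i' ∧ adjD n i' j then e i' else 0) := by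
    rw [Finset.sum_comm]
    refine Finset.sum_congr rfl fun i' _ => ?_
    rw [Finset.sum_ite_eq' Finset.univ j]
    simp
  have e2 : ∑ i : Fin n, ∑ i' : Fin n, (if i' = j then (if i < j ∧ adjD n i j then e i else 0) else 0)
      = ∑ i : Fin n, (if i < j ∧ adjD n i j then e i else 0) := by
    refine Finset.sum_congr rfl fun i _ => ?_
    rw [Finset.sum_ite_eq' Finset.univ j]
    simp
  rw [e1, e2, ← Finset.sum_add_distrib]
  refine Finset.sum_congr rfl fun i _ => ?_
  by_cases hadj : adjD n i j
  · have hij : i ≠ j := fun hh => k2d_not_adj_self n j (hh ▸ hadj)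
    rcases lt_or_gt_of_ne hij with hlt | hgt
    · simp [hadj, hlt, not_lt_of_gt hlt]
    · simp [hadj, hgt, not_lt_of_gt hgt]
  · simp [hadj]

/-- **L-K2D-ARI.** -/
theorem k2d_sum_update (e : Fin n → ℕ) (j : Fin n) (a p : ℕ) (h : a + p = e j) :
    ∑ i, e i = (∑ i, Function.update e j a i) + p := by
  rw [Finset.sum_update_of_mem (Finset.mem_univ j), ← Finset.add_sum_erase Finset.univ e (Finset.mem_univ j), ← h,
    Finset.sdiff_singleton_eq_erase]
  ring

/-- the stratum bound for the sequence `w`, for all families of vector spaces -/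
def k2dStratBound (k : Type) [Field k] [Fintype k] (n : ℕ) (w : List (Fin n)) : Prop :=
  ∀ (V : Fin n → Type) [∀ i, AddCommGroup (V i)] [∀ i, Module k (V i)] [∀ i, FiniteDimensional k (V i)] (c : List ℕ),
    Nat.card {M : PiRep k n V // M.strFrom w ⊤ = c ∧ M.radSeq w ⊤ = ⊥} * (Fintype.card k - 1) ^ (∑ i, finrank k (V i))
      ≤ Fintype.card k ^ (edgeSum (fun i => finrank k (V i)) + ∑ i, finrank k (V i))

/-- **L-K2D-NIL.**  (`radSeq [] ⊤ = ⊤ = ⊥` forces every `V i` to be trivial (`Subsingleton`), so all `finrank`s vanish, there is at most one `PiRep` (`PiRep.ext_a`, `LinearMap.ext`, `Subsingleton.elim`): `Nat.card ≤ 1` (`Finite.card_le_one_iff_subsingleton`);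
if the set is empty the card is `0`.) -/
theorem k2d_stratum_nil [Fintype k] : k2dStratBound k n [] := by
  intro V _ _ _ c
  by_cases hemp : IsEmpty {M : PiRep k n V // M.strFrom [] ⊤ = c ∧ M.radSeq [] ⊤ = ⊥}
  · rw [Nat.card_of_isEmpty]; simp
  · rw [not_isEmpty_iff] at hemp
    obtain ⟨M₀, -, h0⟩ := hemp
    have htb : ∀ i, (⊤ : Submodule k (V i)) = ⊥ := fun i => congrFun h0 i
    have hsub : ∀ i, Subsingleton (V i) := fun i => by
      refine ⟨fun x y => ?_⟩
      have hx : x ∈ (⊥ : Submodule k (V i)) := htb i ▸ Submodule.mem_top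
      have hy : y ∈ (⊥ : Submodule k (V i)) := htb i ▸ Submodule.mem_top
      rw [(Submodule.mem_bot k).1 hx, (Submodule.mem_bot k).1 hy]
    have hfr : ∀ i, finrank k (V i) = 0 := fun i => finrank_zero_of_subsingleton
    have hss : Subsingleton {M : PiRep k n V // M.strFrom [] ⊤ = c ∧ M.radSeq [] ⊤ = ⊥} :=
      ⟨fun M M' => Subtype.ext (PiRep.ext_a fun i j => LinearMap.ext fun v => Subsingleton.elim _ _)⟩
    have hc : Nat.card {M : PiRep k n V // M.strFrom [] ⊤ = c ∧ M.radSeq [] ⊤ = ⊥} ≤ 1 :=
      Finite.card_le_one_iff_subsingleton.2 hss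
    simp only [hfr, Finset.sum_const_zero, pow_zero, mul_one]
    calc _ ≤ 1 := hc
      _ ≤ _ := Nat.one_le_pow _ _ Fintype.card_pos

/-- **L-K2D-CONS.**  The induction step (assembly).
Notation `e i = finrank (V i)`, `q`, `S = nbrSum e j`.   `c = []`: the set is empty (`strFrom (j :: w) _` is a cons).   `c = p :: c'`:  `M` is in the set iff `e j - finrank (M.radAt j ⊤ j) = p` (`finrank_top`) `∧ strFrom w (radAt j ⊤) = c' ∧ radSeq w (radAt j ⊤) = ⊥` (`PiRep.strFrom`, `PiRep.radSeq`, `List.cons.injEq`).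
If `e j < p` the set is empty.   Otherwise `a = e j - p`, and the first condition is `finrank (M.radAt j ⊤ j) = a` (`Submodule.finrank_le`).
Partition by `W = M.radAt j ⊤ j ∈ 𝒢 = {W // finrank W = a}` (`k2d_card_eq_sum`, `Fintype.ofFinite`): `|Set| = ∑_(W ∈ 𝒢) |S_W|`, `S_W` as in `k2d_restrict_count` (`Nat.card_congr`).
For each `W ∈ 𝒢`:  `|S_W| (q-1)^(|e|-p) q^(pa) ≤ q^(pS + D(e') + |e| - p)`, `e' = update e j a`: trivial if `S_W` is empty; otherwise `a ≤ S` (`k2d_fibre`), `|S_W| ≤ q^(p(S-a)) |S'_W|` (`k2d_restrict_count`) and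
`|S'_W| (q-1)^(|e'|) ≤ q^(D(e') + |e'|)` by `IH` for the family `fun i => ↥(k2dNW j W i)` (`k2d_finrank_NW`; `funext`), `|e'| = |e| - p` (`k2d_sum_update`).
Sum over `W`, `k2d_grass (V j) p a`: `|𝒢| (q-1)^p ≤ q^(pa+p)`; `k2d_edgeSum_update`: `D(e) = D(e') + pS`.   Total `|Set| (q-1)^|e| q^(pa) ≤ q^(pa) q^(D(e)+|e|)`; cancel `q^(pa)`. -/
theorem k2d_stratum_cons [Fintype k] (j : Fin n) (w : List (Fin n)) (IH : k2dStratBound k n w) :
    k2dStratBound k n (j :: w) := by
  intro V _ _ _ c
  classical
  set q := Fintype.card k with hq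
  have hq0 : 0 < q := Fintype.card_pos
  set e : Fin n → ℕ := fun i => finrank k (V i) with he
  cases c with
  | nil =>
    have : IsEmpty {M : PiRep k n V // M.strFrom (j :: w) ⊤ = [] ∧ M.radSeq (j :: w) ⊤ = ⊥} :=
      ⟨fun M => by simpa [PiRep.strFrom] using M.2.1⟩
    rw [Nat.card_of_isEmpty]; simp
  | cons p c' =>
    have hchar : ∀ M : PiRep k n V, (M.strFrom (j :: w) ⊤ = p :: c' ∧ M.radSeq (j :: w) ⊤ = ⊥) ↔
        (e j - finrank k (M.radAt j ⊤ j) = p ∧ M.strFrom w (M.radAt j ⊤) = c' ∧ M.radSeq w (M.radAt j ⊤) = ⊥) := by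
      intro M
      simp only [PiRep.strFrom, PiRep.radSeq, List.cons.injEq, Pi.top_apply, finrank_top, and_assoc, he]
    by_cases hp : e j < p
    · have : IsEmpty {M : PiRep k n V // M.strFrom (j :: w) ⊤ = p :: c' ∧ M.radSeq (j :: w) ⊤ = ⊥} :=
        ⟨fun M => by
          have := ((hchar M.1).1 M.2).1
          omega⟩
      rw [Nat.card_of_isEmpty]; simp
    · push Not at hp
      obtain ⟨a, ha⟩ : ∃ a, a + p = e j := ⟨e j - p, by omega⟩
      set S := nbrSum e j with hS
      set e' := Function.update e j a with he'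
      set D' := edgeSum e' with hD'
      set δ' := ∑ i, e' i with hδ'
      have hD : edgeSum e = D' + p * S := k2d_edgeSum_update e j a p ha
      have hδ : ∑ i, e i = δ' + p := k2d_sum_update e j a p ha
      -- the bound for one `W`
      have hW : ∀ W : Submodule k (V j), finrank k W = a →
          Nat.card {M : PiRep k n V // M.radAt j ⊤ j = W ∧ M.strFrom w (M.radAt j ⊤) = c' ∧
            M.radSeq w (M.radAt j ⊤) = ⊥} * (q - 1) ^ δ' * q ^ (p * a) ≤ q ^ (p * S + D' + δ') := by
        intro W hWa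
        by_cases hemp : IsEmpty {M : PiRep k n V // M.radAt j ⊤ j = W ∧ M.strFrom w (M.radAt j ⊤) = c' ∧
            M.radSeq w (M.radAt j ⊤) = ⊥}
        · rw [Nat.card_of_isEmpty]; simp
        · rw [not_isEmpty_iff] at hemp
          obtain ⟨M₀, hM₀, -⟩ := hemp
          have haS : a ≤ S := by
            have := (k2d_fibre M₀ j).1
            rw [hM₀, hWa] at this
            exact this
          have h1 := k2d_restrict_count (k := k) j w c' W
          rw [hWa] at h1
          have hpe : finrank k (V j) - a = p := by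
            have : finrank k (V j) = e j := rfl
            omega
          rw [hpe] at h1
          have h2 := IH (fun i => ↥(k2dNW j W i)) c'
          have hfun : (fun i => finrank k ↥(k2dNW j W i)) = e' := by
            funext i
            rw [k2d_finrank_NW, hWa]
          rw [hfun] at h2
          set T := Nat.card {M : PiRep k n V // M.radAt j ⊤ j = W ∧ M.strFrom w (M.radAt j ⊤) = c' ∧
            M.radSeq w (M.radAt j ⊤) = ⊥}
          set T' := Nat.card {M' : PiRep k n (fun i => ↥(k2dNW j W i)) // M'.strFrom w ⊤ = c' ∧ M'.radSeq w ⊤ = ⊥}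
          calc T * (q - 1) ^ δ' * q ^ (p * a)
              ≤ (q ^ (p * (S - a)) * T') * (q - 1) ^ δ' * q ^ (p * a) := by gcongr
            _ = q ^ (p * (S - a)) * q ^ (p * a) * (T' * (q - 1) ^ δ') := by ring
            _ ≤ q ^ (p * (S - a)) * q ^ (p * a) * q ^ (D' + δ') := by gcongr
            _ = q ^ (p * S + D' + δ') := by
                rw [← pow_add, ← pow_add]
                congr 1
                have : p * (S - a) + p * a = p * S := by
                  rw [← Nat.mul_add, Nat.sub_add_cancel haS]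
                omega
      -- partition
      have hfinr : ∀ M : {M : PiRep k n V // M.strFrom (j :: w) ⊤ = p :: c' ∧ M.radSeq (j :: w) ⊤ = ⊥},
          finrank k (M.1.radAt j ⊤ j) = a := by
        intro M
        have h1 := ((hchar M.1).1 M.2).1
        have h2 : finrank k (M.1.radAt j ⊤ j) ≤ e j := Submodule.finrank_le _
        omega
      have : Fintype {W : Submodule k (V j) // finrank k W = a} := Fintype.ofFinite _
      have hsum := k2d_card_eq_sum
        (fun M : {M : PiRep k n V // M.strFrom (j :: w) ⊤ = p :: c' ∧ M.radSeq (j :: w) ⊤ = ⊥} =>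
          (⟨M.1.radAt j ⊤ j, hfinr M⟩ : {W : Submodule k (V j) // finrank k W = a}))
      have hfib : ∀ W : {W : Submodule k (V j) // finrank k W = a},
          Nat.card {M : {M : PiRep k n V // M.strFrom (j :: w) ⊤ = p :: c' ∧ M.radSeq (j :: w) ⊤ = ⊥} //
            (⟨M.1.radAt j ⊤ j, hfinr M⟩ : {W : Submodule k (V j) // finrank k W = a}) = W}
          ≤ Nat.card {M : PiRep k n V // M.radAt j ⊤ j = W.1 ∧ M.strFrom w (M.radAt j ⊤) = c' ∧
            M.radSeq w (M.radAt j ⊤) = ⊥} := by
        intro W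
        refine Nat.card_le_card_of_injective (fun M => ⟨M.1.1, congrArg Subtype.val M.2,
          ((hchar M.1.1).1 M.1.2).2⟩) ?_
        intro M M' h
        apply Subtype.ext
        apply Subtype.ext
        exact congrArg (fun x => x.1) h
      have hgr := k2d_grass (k := k) (V j) p a ha
      rw [← hq] at hgr
      set G := Nat.card {W : Submodule k (V j) // finrank k W = a} with hG
      have hmain : Nat.card {M : PiRep k n V // M.strFrom (j :: w) ⊤ = p :: c' ∧ M.radSeq (j :: w) ⊤ = ⊥}
          * (q - 1) ^ (δ' + p) * q ^ (p * a) ≤ q ^ (p * a) * q ^ (D' + p * S + (δ' + p)) := by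
        rw [hsum, Finset.sum_mul, Finset.sum_mul]
        calc _ ≤ ∑ W : {W : Submodule k (V j) // finrank k W = a}, q ^ (p * S + D' + δ') * (q - 1) ^ p := by
              refine Finset.sum_le_sum fun W _ => ?_
              calc _ ≤ Nat.card {M : PiRep k n V // M.radAt j ⊤ j = W.1 ∧ M.strFrom w (M.radAt j ⊤) = c' ∧
                    M.radSeq w (M.radAt j ⊤) = ⊥} * (q - 1) ^ (δ' + p) * q ^ (p * a) := by
                    gcongr
                    exact hfib W
                _ = (Nat.card {M : PiRep k n V // M.radAt j ⊤ j = W.1 ∧ M.strFrom w (M.radAt j ⊤) = c' ∧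
                    M.radSeq w (M.radAt j ⊤) = ⊥} * (q - 1) ^ δ' * q ^ (p * a)) * (q - 1) ^ p := by
                    rw [pow_add]; ring
                _ ≤ _ := by
                    gcongr
                    exact hW W.1 W.2
          _ = (G * (q - 1) ^ p) * q ^ (p * S + D' + δ') := by
              rw [Finset.sum_const, Finset.card_univ, hG, Nat.card_eq_fintype_card, smul_eq_mul]; ring
          _ ≤ q ^ (p * a + p) * q ^ (p * S + D' + δ') := by gcongr
          _ = q ^ (p * a) * q ^ (D' + p * S + (δ' + p)) := by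
              rw [← pow_add, ← pow_add]; congr 1; ring
      rw [hD, hδ]
      have h3 : q ^ (p * a) * (Nat.card {M : PiRep k n V // M.strFrom (j :: w) ⊤ = p :: c' ∧
          M.radSeq (j :: w) ⊤ = ⊥} * (q - 1) ^ (δ' + p)) ≤ q ^ (p * a) * q ^ (D' + p * S + (δ' + p)) := by
        calc _ = Nat.card {M : PiRep k n V // M.strFrom (j :: w) ⊤ = p :: c' ∧ M.radSeq (j :: w) ⊤ = ⊥}
          * (q - 1) ^ (δ' + p) * q ^ (p * a) := by ring
          _ ≤ _ := hmain
      exact Nat.le_of_mul_le_mul_left h3 (by positivity)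

/-- **(D3)**, coordinate free -/
theorem k2d_stratum [Fintype k] (w : List (Fin n)) : k2dStratBound k n w := by
  induction w with
  | nil => exact k2d_stratum_nil
  | cons j w ih => exact k2d_stratum_cons j w ih

theorem k2d_toRep_injective {d : Fin n → ℕ} : Function.Injective (PiMod.toRep : PiMod k n d → _) := by
  intro M M' h
  apply PiMod.ext_a
  intro i j
  have h1 : Matrix.mulVecLin (M.a i j) = Matrix.mulVecLin (M'.a i j) := congrArg (fun R => R.a i j) h
  exact Matrix.toLin'.injective h1

/-- **L-K2D-BRI.  (D3)** for `PiMod`.   (`M ↦ (M.dl b).toRep` is injective: `PiMod.dl_dl`, `PiMod.ext_a`, `Matrix.toLin'`/`Matrix.mulVecLin` injective (`Matrix.ext_of_mulVec_single`…); it maps the set into the set of `k2d_stratum w (fun i => Fin (d i) → k) c`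
(`PiMod.str`, `PiRep.str`, `hExh (M.dl b)`); `Nat.card_le_card_of_injective`; `Module.finrank_fin_fun`.) -/
theorem k2d_stratum_mod [Fintype k] {d : Fin n → ℕ} (w : List (Fin n)) (hExh : ∀ M : PiMod k n d, M.Exh w) (b : Bool)
    (c : List ℕ) :
    Nat.card {M : PiMod k n d // (M.dl b).str w = c} * (Fintype.card k - 1) ^ (∑ i, d i)
      ≤ Fintype.card k ^ (edgeSum d + ∑ i, d i) := by
  have h := k2d_stratum (k := k) w (fun i => Fin (d i) → k) c
  simp only [Module.finrank_fin_fun] at h
  refine le_trans ?_ h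
  gcongr
  refine Nat.card_le_card_of_injective (fun M => ⟨(M.1.dl b).toRep, M.2, hExh _⟩) ?_
  intro M M' hMM
  apply Subtype.ext
  have h1 : (M.1.dl b).toRep = (M'.1.dl b).toRep := congrArg (fun x => x.1) hMM
  have h2 := k2d_toRep_injective h1
  rw [← PiMod.dl_dl b M.1, h2, PiMod.dl_dl]

end Claimed.Agent.R282
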