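/-
Row 282, layer K2, PACKAGE D (counting; architect helper66).   File 5/5: separation `D4` and the OUTPUT of the package, `k2d_main`.
-/
import Claimed.Agent.R282.K2.DGen
import Claimed.Agent.R282.K2.DStrat

set_option autoImplicit false

namespace Claimed.Agent.R282

open Module

variable {k : Type} [Field k] {n : ℕ} {d : Fin n → ℕ}

theorem k2d_card_split {α : Type*} [Finite α] (R P : α → Prop) :
    Nat.card {a // R a} = Nat.card {a // R a ∧ P a} + Nat.card {a // R a ∧ ¬ P a} := by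
  classical
  have := Fintype.ofFinite α
  simp only [Nat.card_eq_fintype_card, Fintype.card_subtype]
  rw [← Finset.card_union_of_disjoint]
  · congr 1
    ext a
    simp only [Finset.mem_filter, Finset.mem_univ, true_and, Finset.mem_union]
    tauto
  · rw [Finset.disjoint_left]
    intro a ha hb
    simp only [Finset.mem_filter, Finset.mem_univ, true_and] at ha hb
    exact hb.2 ha.2

theorem k2d_card_disj {α : Type*} [Finite α] (P Q R : α → Prop) (hPR : ∀ a, P a → R a) (hQR : ∀ a, Q a → R a)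
    (hd : ∀ a, P a → ¬ Q a) : Nat.card {a // P a} + Nat.card {a // Q a} ≤ Nat.card {a // R a} := by
  classical
  have := Fintype.ofFinite α
  simp only [Nat.card_eq_fintype_card, Fintype.card_subtype]
  rw [← Finset.card_union_of_disjoint]
  · apply Finset.card_le_card
    intro a ha
    simp only [Finset.mem_filter, Finset.mem_univ, true_and, Finset.mem_union] at ha ⊢
    exact ha.elim (hPR a) (hQR a)
  · rw [Finset.disjoint_left]
    intro a ha hb
    simp only [Finset.mem_filter, Finset.mem_univ, true_and] at ha hb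
    exact hd a ha hb

theorem k2d_qiso_of_common {X X' M : PiMod k n d} (h : QIso X M) (h' : QIso X' M) : QIso X X' := by
  obtain ⟨g, hg⟩ := h
  obtain ⟨g', hg'⟩ := h'
  refine ⟨g'⁻¹ * g, ?_⟩
  have h1 : SameX (X'.act g') (X.act g) := hg'.symm.trans hg
  have h2 := h1.act g'⁻¹
  rw [PiMod.act_act, PiMod.act_act, inv_mul_cancel, PiMod.act_one] at h2
  exact h2

/-- **L-K2D-NUM.**  The numerical contradiction.   In `ℝ`, `r = (q - 1) / q`:  `L, L' ≥ r^δ q^D`,  `G ≥ (1 - K/(q-1)) L`,  `Λ ≤ q^D r^(-δ)`, so `2 (1 - K/(q-1)) r^(2δ) ≤ 1`;  but `r^(2δ) ≥ 1 - 2δ/q ≥ 7/8` (`one_add_mul_le_pow`) and `1 - K/(q-1) ≥ 7/8`. -/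
theorem k2d_num (q δ K D L L' G G' Λ : ℕ) (hq : 8 * K + 16 * δ + 2 ≤ q)
    (hL : (q - 1) ^ δ * q ^ D ≤ q ^ δ * L) (hL' : (q - 1) ^ δ * q ^ D ≤ q ^ δ * L')
    (hG : (q - 1 - K) * L ≤ (q - 1) * G) (hG' : (q - 1 - K) * L' ≤ (q - 1) * G') (hΛ : G + G' ≤ Λ)
    (hS : Λ * (q - 1) ^ δ ≤ q ^ (D + δ)) : False := by
  obtain ⟨a, rfl⟩ : ∃ a, q = a + 1 := ⟨q - 1, by omega⟩
  obtain ⟨c, rfl⟩ : ∃ c, a = K + c := ⟨a - K, by omega⟩
  have e1 : K + c + 1 - 1 = K + c := by omega
  have e2 : K + c - K = c := by omega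
  rw [e1] at hL hL' hG hG' hS
  rw [e2] at hG hG'
  -- real variables
  obtain ⟨a, ha⟩ : ∃ a : ℝ, a = ((K + c : ℕ) : ℝ) := ⟨_, rfl⟩
  obtain ⟨P, hP⟩ : ∃ P : ℝ, P = a ^ δ := ⟨_, rfl⟩
  obtain ⟨R, hR⟩ : ∃ R : ℝ, R = (a + 1) ^ δ := ⟨_, rfl⟩
  obtain ⟨T, hT⟩ : ∃ T : ℝ, T = (a + 1) ^ D := ⟨_, rfl⟩
  have hq' : 8 * (K : ℝ) + 16 * δ + 1 ≤ a := by
    rw [ha]
    have : 8 * K + 16 * δ + 1 ≤ K + c := by omega
    exact_mod_cast this
  have hK0 : (0 : ℝ) ≤ K := Nat.cast_nonneg _
  have hδ0 : (0 : ℝ) ≤ δ := Nat.cast_nonneg _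
  have ha0 : 0 < a := by linarith
  have hc : (c : ℝ) = a - K := by rw [ha]; push_cast; ring
  have hP0 : 0 < P := by rw [hP]; positivity
  have hR0 : 0 < R := by rw [hR]; positivity
  have hT0 : 0 < T := by rw [hT]; positivity
  have hL1 : P * T ≤ R * L := by
    rw [hP, hR, hT, ha]; exact_mod_cast hL
  have hL1' : P * T ≤ R * L' := by
    rw [hP, hR, hT, ha]; exact_mod_cast hL'
  have hG1 : (c : ℝ) * L ≤ a * G := by
    rw [ha]; exact_mod_cast hG
  have hG1' : (c : ℝ) * L' ≤ a * G' := by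
    rw [ha]; exact_mod_cast hG'
  have hΛ1 : (G : ℝ) + G' ≤ Λ := by exact_mod_cast hΛ
  have hS1 : (Λ : ℝ) * P ≤ T * R := by
    rw [hP, hR, hT, ← pow_add, ha]; exact_mod_cast hS
  have hc0 : (0 : ℝ) ≤ c := Nat.cast_nonneg _
  -- the chain
  have chain : 2 * (c : ℝ) * P ^ 2 * T ≤ a * R ^ 2 * T := by
    calc 2 * (c : ℝ) * P ^ 2 * T = c * P * (P * T + P * T) := by ring
      _ ≤ c * P * (R * L + R * L') :=
          mul_le_mul_of_nonneg_left (add_le_add hL1 hL1') (by positivity)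
      _ = P * R * (c * L + c * L') := by ring
      _ ≤ P * R * (a * G + a * G') :=
          mul_le_mul_of_nonneg_left (add_le_add hG1 hG1') (by positivity)
      _ = a * R * P * (G + G') := by ring
      _ ≤ a * R * P * Λ := mul_le_mul_of_nonneg_left hΛ1 (by positivity)
      _ = a * R * (Λ * P) := by ring
      _ ≤ a * R * (T * R) := mul_le_mul_of_nonneg_left hS1 (by positivity)
      _ = a * R ^ 2 * T := by ring
  -- Bernoulli
  have hbern : 7 / 8 * R ^ 2 ≤ P ^ 2 := by
    have h1 := one_add_mul_le_pow (a := -(1 / (a + 1))) (by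
      have : 1 / (a + 1) ≤ 1 := by
        rw [div_le_one (by linarith)]; linarith
      linarith) (2 * δ)
    have h2 : 1 + -(1 / (a + 1)) = a / (a + 1) := by field_simp; ring
    rw [h2, div_pow] at h1
    have h3 : (7 : ℝ) / 8 ≤ 1 + ((2 * δ : ℕ) : ℝ) * -(1 / (a + 1)) := by
      have h4 : ((2 * δ : ℕ) : ℝ) * (1 / (a + 1)) ≤ 1 / 8 := by
        push_cast
        rw [mul_one_div, div_le_iff₀ (by linarith)]
        linarith
      linarith
    have h5 : (7 : ℝ) / 8 ≤ a ^ (2 * δ) / (a + 1) ^ (2 * δ) := h3.trans h1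
    rw [le_div_iff₀ (by positivity)] at h5
    rw [hP, hR, ← pow_mul, ← pow_mul, mul_comm δ 2]
    exact h5
  have hc78 : 7 / 8 * a ≤ c := by rw [hc]; linarith
  have h6 : 2 * (7 / 8 * a) * (7 / 8 * R ^ 2) * T ≤ 2 * (c : ℝ) * P ^ 2 * T := by
    have h7 : (7 / 8 * a) * (7 / 8 * R ^ 2) ≤ (c : ℝ) * P ^ 2 :=
      mul_le_mul hc78 hbern (by positivity) hc0
    nlinarith
  have h8 : 0 < a * R ^ 2 * T := by positivity
  nlinarith

/-- good elements of a class -/
theorem k2d_good_class [Fintype k] (w : List (Fin n)) (b : Bool) (X : PiMod k n d) (c : List ℕ) (K : ℕ)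
    (h : Nat.card {M : PiMod k n d // SameX X M ∧ (M.dl b).str w ≠ c} * (Fintype.card k - 1)
      ≤ K * Nat.card {M : PiMod k n d // SameX X M}) :
    (Fintype.card k - 1 - K) * Nat.card {M : PiMod k n d // QIso X M}
      ≤ (Fintype.card k - 1) * Nat.card {M : PiMod k n d // QIso X M ∧ (M.dl b).str w = c} := by
  set q := Fintype.card k
  have hP : ∀ (g : GG k n d) (M : PiMod k n d), ((M.act g).dl b).str w ≠ c ↔ (M.dl b).str w ≠ c := by
    intro g M
    rw [PiMod.str_dl_act]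
  have orb1 := k2d_orbit (fun M : PiMod k n d => (M.dl b).str w ≠ c) hP X
  have orb0 := k2d_orbit (fun _ : PiMod k n d => True) (fun _ _ => Iff.rfl) X
  have eN : Nat.card {M : PiMod k n d // SameX X M ∧ True} = Nat.card {M : PiMod k n d // SameX X M} :=
    Nat.card_congr (Equiv.subtypeEquivRight fun M => by simp)
  have eL : Nat.card {M : PiMod k n d // QIso X M ∧ True} = Nat.card {M : PiMod k n d // QIso X M} :=
    Nat.card_congr (Equiv.subtypeEquivRight fun M => by simp)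
  rw [eN, eL] at orb0
  obtain ⟨hA, -⟩ := k2d_card_aut X
  have hsplit := k2d_card_split (fun M : PiMod k n d => QIso X M) (fun M => (M.dl b).str w = c)
  set Gc := Nat.card (GG k n d)
  set A := Nat.card (AutX X)
  set N := Nat.card {M : PiMod k n d // SameX X M}
  set L := Nat.card {M : PiMod k n d // QIso X M}
  set B := Nat.card {M : PiMod k n d // SameX X M ∧ (M.dl b).str w ≠ c}
  set BL := Nat.card {M : PiMod k n d // QIso X M ∧ (M.dl b).str w ≠ c}
  set Gd := Nat.card {M : PiMod k n d // QIso X M ∧ (M.dl b).str w = c}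
  have hBL : BL * (q - 1) ≤ K * L := by
    have : A * (BL * (q - 1)) ≤ A * (K * L) := by
      calc A * (BL * (q - 1)) = (A * BL) * (q - 1) := by ring
        _ = (Gc * B) * (q - 1) := by rw [orb1]
        _ = Gc * (B * (q - 1)) := by ring
        _ ≤ Gc * (K * N) := by gcongr
        _ = K * (Gc * N) := by ring
        _ = K * (A * L) := by rw [orb0]
        _ = A * (K * L) := by ring
    exact Nat.le_of_mul_le_mul_left this hA
  have hL : L = Gd + BL := hsplit
  calc (q - 1 - K) * L = (q - 1) * L - K * L := Nat.sub_mul _ _ _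
    _ ≤ (q - 1) * L - BL * (q - 1) := Nat.sub_le_sub_left hBL _
    _ = (q - 1) * Gd := by rw [hL]; rw [Nat.mul_add, Nat.mul_comm BL]; omega

/-- **(D4)**  non isomorphic oriented parts have different generic strings. -/
theorem k2d_sep [Fintype k] (w : List (Fin n)) (hExh : ∀ M : PiMod k n d, M.Exh w) (b : Bool) (X X' : PiMod k n d)
    (hne : ¬ QIso X X') (c : List ℕ) (K : ℕ) (hq : 8 * K + 16 * (∑ i, d i) + 2 ≤ Fintype.card k)
    (h : Nat.card {M : PiMod k n d // SameX X M ∧ (M.dl b).str w ≠ c} * (Fintype.card k - 1)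
      ≤ K * Nat.card {M : PiMod k n d // SameX X M})
    (h' : Nat.card {M : PiMod k n d // SameX X' M ∧ (M.dl b).str w ≠ c} * (Fintype.card k - 1)
      ≤ K * Nat.card {M : PiMod k n d // SameX X' M}) : False := by
  refine k2d_num (Fintype.card k) (∑ i, d i) K (edgeSum d) _ _ _ _ _ hq (k2d_class_lower X) (k2d_class_lower X')
    (k2d_good_class w b X c K h) (k2d_good_class w b X' c K h') ?_ (k2d_stratum_mod w hExh b c)
  exact k2d_card_disj _ _ _ (fun M hM => hM.2) (fun M hM => hM.2)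
    (fun M hM hM' => hne (k2d_qiso_of_common hM.1 hM'.1))

/-- **OUTPUT OF PACKAGE D.**   For `q ≥ q₀ (n, d, 𝒲)`: given pairwise non isomorphic oriented parts `X m` there are modules `M m` with these oriented parts such that for every sequence `w ∈ 𝒲` (exhausting all modules)
the strings of the `M m` are pairwise distinct, and so are the strings of the duals. -/
theorem k2d_main (n : ℕ) (d : Fin n → ℕ) (𝒲 : Finset (List (Fin n))) :
    ∃ q₀ : ℕ, ∀ (k : Type) [Field k] [Fintype k], q₀ ≤ Fintype.card k →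
      (∀ w ∈ 𝒲, ∀ M : PiMod k n d, M.Exh w) →
      ∀ (ι : Type) (X : ι → PiMod k n d), (∀ m m', m ≠ m' → ¬ QIso (X m) (X m')) →
        ∃ M : ι → PiMod k n d, (∀ m, SameX (X m) (M m)) ∧
          ∀ w ∈ 𝒲, ∀ b : Bool, ∀ m m', m ≠ m' → ((M m).dl b).str w ≠ ((M m').dl b).str w := by
  classical
  refine ⟨8 * (∑ w ∈ 𝒲, k2dK d w) + 16 * (∑ i, d i) + 2, ?_⟩
  intro k _ _ hq hExh ι X hX
  set q := Fintype.card k with hqdef
  set Kt := ∑ w ∈ 𝒲, k2dK d w with hKt
  choose c hc using fun (m : ι) (b : Bool) (w : List (Fin n)) => k2d_generic (X m) b w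
  have hex : ∀ m, ∃ M : PiMod k n d, SameX (X m) M ∧ ∀ w ∈ 𝒲, ∀ b : Bool, (M.dl b).str w = c m b w := by
    intro m
    by_contra hcon
    push Not at hcon
    have hun := k2d_card_union (𝒲 ×ˢ (Finset.univ : Finset Bool)) (fun M : PiMod k n d => SameX (X m) M)
      (fun p M => SameX (X m) M ∧ (M.dl p.2).str p.1 ≠ c m p.2 p.1) (by
        intro M hM
        obtain ⟨w, hw, b, hb⟩ := hcon M hM
        exact ⟨(w, b), by simp [hw], hM, hb⟩)
    set N := Nat.card {M : PiMod k n d // SameX (X m) M} with hN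
    have hNpos : 0 < N := by
      have : Nonempty {M : PiMod k n d // SameX (X m) M} := ⟨⟨X m, SameX.refl _⟩⟩
      exact Nat.card_pos
    have h1 : N * (q - 1) ≤ (2 * Kt) * N := by
      calc N * (q - 1) ≤ (∑ p ∈ 𝒲 ×ˢ (Finset.univ : Finset Bool),
              Nat.card {M : PiMod k n d // SameX (X m) M ∧ (M.dl p.2).str p.1 ≠ c m p.2 p.1}) * (q - 1) := by
            gcongr
        _ = ∑ p ∈ 𝒲 ×ˢ (Finset.univ : Finset Bool),
              Nat.card {M : PiMod k n d // SameX (X m) M ∧ (M.dl p.2).str p.1 ≠ c m p.2 p.1} * (q - 1) :=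
            Finset.sum_mul _ _ _
        _ ≤ ∑ p ∈ 𝒲 ×ˢ (Finset.univ : Finset Bool), k2dK d p.1 * N :=
            Finset.sum_le_sum fun p _ => hc m p.2 p.1
        _ = (2 * Kt) * N := by
            rw [Finset.sum_product, hKt, Finset.mul_sum, Finset.sum_mul]
            refine Finset.sum_congr rfl fun w _ => ?_
            simp [two_mul, add_mul]
    have h2 : q - 1 ≤ 2 * Kt := by
      rw [Nat.mul_comm N] at h1
      exact Nat.le_of_mul_le_mul_right h1 hNpos
    omega
  choose M hM using hex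
  refine ⟨M, fun m => (hM m).1, ?_⟩
  intro w hw b m m' hmm heq
  rw [(hM m).2 w hw b, (hM m').2 w hw b] at heq
  have hK : k2dK d w ≤ Kt := Finset.single_le_sum (f := fun w => k2dK d w) (fun _ _ => Nat.zero_le _) hw
  refine k2d_sep w (hExh w hw) b (X m) (X m') (hX m m' hmm) (c m b w) (k2dK d w) (by omega) (hc m b w) ?_
  rw [heq]
  exact hc m' b w

end Claimed.Agent.R282
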