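import Claimed.Agent.R282.K2.S6.Theta
import Claimed.Agent.R282.K2.S6.Dual
import Claimed.Agent.R282.K2.S6.Thresh
import Claimed.Agent.R282.K2.S6.Assemble

/-!
# Row 282, Sec. 6.2-6.4 redesigned: threshold bounds and the doubling construction

PLAN (helper40).  No Jordan bases, no colourings, no Zariski topology, no field extension.

Notation (0-based): `c = r - 1` the cut vertex (a trunk vertex, `c ≤ n - 3`), `V = V_c`,
`u = a (c-1) c`, `v = a c (c-1)` (both `0` if `c = 0`), `t = u v` on `V`.
For an endomorphism `t` put `F t b = ker t ⊓ range (t^(b-1))` (`hiSoc` below, with `b = e + 1`).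

(1) THRESHOLD (Lemma 6.3), basis-free.  For `u : X → Y`, `v : Y → X`, `s = v u`, `t = u v`:
    `u` maps `F s b` into `ker v ⊓ F t b` with kernel `ker u ⊓ F s b`; symmetrically for `v`.  Hence
    `dim F s b ≤ dim (ker u ⊓ F s b) + dim (ker v ⊓ F t b)` and the same bound for `dim F t b`   [s6_edge].
    At a vertex: `dim (K₁ ⊓ F) + dim (K₂ ⊓ F) ≤ dim F + dim (K₁ ⊓ K₂)`                          [s6_vertex].
    At the two old leaves `W = W₁ × W₂`, `t` with vanishing diagonal blocks: `F t b` is graded (char ≠ 2), so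
    `2 dim Z ≤ dim (Z ⊓ W₁) + dim (Z ⊓ W₂) + dim F t b` for `Z ≤ F t b`                          [s6_leaf].
    The relation at a trunk vertex `i` reads `u_i v_i = ∑_(right neighbours j) a j i ∘ a i j` (signs of `PiMod.rel`).
    Descending induction from the fork to `c`:
    `2 dim (ker v ⊓ F t b) ≤ 2 soc_c + dim F t b` if `soc_i = 0` for all `i > c`                  [s6_threshold].
    Tops: the same for the transposed module.
(2) GENERIC `θ` by a first moment.  `Θ = {θ : θ t + t θ = 0}`, a finite vector space.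
    (a) if `x ∈ F t b`, `x ∉ range (t^b)`, `z ∈ F t b`, then some `θ ∈ Θ` has `θ x = z`:
        choose `φ` linear with `φ x = 1`, `φ = 0` on `range (t^b)`, `z = t^(b-1) w'`,
        `θ y = ∑_(s<b) (-1)^s φ (t^s y) • t^(b-1-s) w'`                                           [s6_eval_onto].
    (b) every `θ ∈ Θ` maps `F t b` to itself; so for such `x` the map `θ ↦ θ x` is onto `F t b` and
        `#{θ : θ x ∈ K} = #Θ · #(K ⊓ F t b) / #(F t b)`.
    (c) if `2 dim (K ⊓ F t b) ≤ m + dim F t b` for all `b`, then `∑_θ #(K ⊓ θ⁻¹ K) ≤ #Θ (1 + (dim V) q^m)`, hence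
        `q · #{θ : dim (K ⊓ θ⁻¹ K) > m} ≤ (dim V + 1) · #Θ`                                        [s6_bad_soc].
    (d) `θ ∈ Θ` is injective iff it is injective on `ker t` (t nilpotent);
        `(q - 1) · #{θ not injective} ≤ (dim V) · #Θ`                                              [s6_bad_inj].
    (e) transposition is a bijection `Θ(t) → Θ(tᵀ)`.  Union bound: for `q > 4 (dim V + 2)` there is an invertible
        `θ ∈ Θ` with `dim (K_S ⊓ θ⁻¹ K_S) ≤ m_S` and `dim (K_T ⊓ (θᵀ)⁻¹ K_T) ≤ m_T`                 [s6_theta].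
(3) DOUBLING.  New module on `D_(r+1)`: `X'_i ≤ V_(cut i) × V_(cut i)`: everything for the trunk, the graph of `θ` for
    the leaf `r - 1`, the graph of `-θ` for the leaf `r`.  Arrows: `π_j ∘ (a × a) ∘ ι_i` with `π_±` the projections of
    `V × V = graph θ ⊕ graph (-θ)` (char ≠ 2).  Relations: `π_± (t × t) ι_± = 0` because `t × t` exchanges the two
    graphs; at the fork `ι_+ π_+ + ι_- π_- = 1`.  Bounds: trunk doubled; `soc_± = K_S ⊓ θ⁻¹ K_S`,
    `top_± = dim V - dim (range u + θ⁻¹ range u) = dim (K_T ⊓ (θᵀ) K_T)`                            [s6_assemble].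
-/

set_option autoImplicit false

namespace Claimed.Agent.R282

open Module

/-- Lemma 6.3 and the doubling construction, over a finite field of odd characteristic with more than
`4 (|d| + 2)` elements (glue, proved from the leaves L-S6-*). -/
theorem s6_double (n r : ℕ) (hr : 1 ≤ r) (hrn : r + 2 ≤ n) (a b d : Fin n → ℕ)
    (ha : ∀ i : Fin n, r ≤ i.val → a i = 0) (hb : ∀ i : Fin n, r ≤ i.val → b i = 0)
    (k : Type) [Field k] [Fintype k] (h2 : (2 : k) ≠ 0)
    (hq : 4 * (∑ i, d i + 2) < Fintype.card k) (M : PiMod k n d) (hM : M.Bdd a b) :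
    ∃ M' : PiMod k (r + 1) (cutDim n r hr hrn d),
      M'.Bdd (cutBd n r hr hrn a) (cutBd n r hr hrn b) := by
  obtain ⟨c, hc⟩ : ∃ c : Fin n, c.val + 1 = r := ⟨⟨r - 1, by omega⟩, by simp; omega⟩
  have hc3 : c.val + 3 ≤ n := by omega
  have hsoc0 : ∀ i : Fin n, c < i → M.soc i = 0 := by
    intro i hi
    have h1 := (hM i).2
    rw [hb i (by have := Fin.lt_def.mp hi; omega)] at h1
    omega
  have htop0 : ∀ i : Fin n, c < i → M.dual.soc i = 0 := by
    intro i hi
    have h1 := (hM i).1
    rw [ha i (by have := Fin.lt_def.mp hi; omega)] at h1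
    rw [s6_dual_soc]
    omega
  have hdc : d c ≤ ∑ i, d i := Finset.single_le_sum (fun i _ => Nat.zero_le (d i)) (Finset.mem_univ c)
  have hKT : M.dual.kerL c ≤ LinearMap.ker (Matrix.mulVecLin (M.ret c).transpose) := by
    rw [← s6_dual_ret]; exact s6_kerL_le M.dual c hc3
  have hT : ∀ e, 2 * finrank k (M.dual.kerL c ⊓ hiSoc (Matrix.mulVecLin (M.ret c).transpose) e :
      Submodule k (Fin (d c) → k))
      ≤ 2 * M.dual.soc c + finrank k (hiSoc (Matrix.mulVecLin (M.ret c).transpose) e) := by
    intro e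
    rw [← s6_dual_ret]; exact s6_threshold h2 M.dual c hc3 htop0 e
  obtain ⟨θ, hθu, hθa, hθS, hθT⟩ := s6_theta (M.ret c) (s6_ret_nilp M c hc3) (by omega)
    (M.kerL c) (M.dual.kerL c) (2 * M.soc c) (2 * M.dual.soc c) (s6_kerL_le M c hc3) hKT
    (s6_threshold h2 M c hc3 hsoc0) hT
  obtain ⟨M', hM1, hM2⟩ := s6_assemble n r hr hrn d h2 M c hc θ hθu hθa
  refine ⟨M', fun i => ?_⟩
  by_cases hi : i.val + 1 < r
  · obtain ⟨h3, h4⟩ := hM1 i hi
    have h5 := hM (cutIdx n r hr hrn i)
    unfold cutBd
    omega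
  · obtain ⟨h3, h4⟩ := hM2 i (by omega)
    have hci : cutIdx n r hr hrn i = c := by
      apply Fin.ext
      simp only [cutIdx]
      omega
    have h5 := hM c
    rw [s6_dual_soc] at hθT
    unfold cutBd
    rw [hci]
    omega

end Claimed.Agent.R282
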