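import Claimed.Agent.R282.K2.Contracts
import Claimed.Agent.R282.K2.S6

/-!
# Row 282: Prop 6.1 on the level of double quotients (glue)
-/

set_option autoImplicit false

namespace Claimed.Agent.R282

/-- Prop 6.1 on the level of double quotients (glue, proved from the three contracts). -/
theorem prop61_dq (n r : ℕ) (hr : 1 ≤ r) (hrn : r + 2 ≤ n) (a b d : Fin n → ℕ)
    (ha : ∀ i : Fin n, r ≤ i.val → a i = 0) (hb : ∀ i : Fin n, r ≤ i.val → b i = 0)
    (h : DQne ℚ n a b d) :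
    DQne ℚ (r + 1) (cutBd n r hr hrn a) (cutBd n r hr hrn b) (cutDim n r hr hrn d) := by
  apply k2_bwd (r + 1) (by omega)
  intro B
  obtain ⟨l, hlB, hl⟩ := Nat.exists_infinite_primes (max B (∑ i, d i) + 3)
  refine ⟨l, by omega, hl, ?_⟩
  obtain ⟨k, fk, ftk, hdiv, hB, h2, M, hM⟩ :=
    k2_fwd n (by omega) a b d h l hl (by omega) (by omega) (4 * (∑ i, d i + 2) + 1)
  obtain ⟨M', hM'⟩ := s6_double n r hr hrn a b d ha hb k h2 (by omega) M hM
  exact ⟨k, fk, ftk, hdiv, Nat.zero_le _, h2, M', hM'⟩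

end Claimed.Agent.R282
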